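import Vale.Agent.P209.H578.Susp
import Vale.Agent.P209.H684.Calc

/-!
# Cotangent lifts of `T²`-invariant changes `(p, u) ↦ (F (p, u), u)`
-/

namespace Vale.Agent.P209.H721

open scoped ContDiff
open Complex H578 H684

variable {d : ℕ}

/-- `∂F/∂p` -/
noncomputable def Fp (F : ℝ × (Fin d → ℝ) → ℝ) (q : ℝ × (Fin d → ℝ)) : ℝ := fderiv ℝ F q (1, 0)

/-- `∂F/∂u_b` -/
noncomputable def Fu (F : ℝ × (Fin d → ℝ) → ℝ) (b : Fin d) (q : ℝ × (Fin d → ℝ)) : ℝ :=
  fderiv ℝ F q (0, Pi.single b 1)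

/-- the new angle `θ / F_p` -/
noncomputable def ctau (F : ℝ × (Fin d → ℝ) → ℝ) (w : Fin (d + 1) → ℂ) : ℝ :=
  (w 0).im / Fp F (qq w)

/-- the cotangent lift of `(p, u) ↦ (F (p, u), u)` -/
noncomputable def clift (F : ℝ × (Fin d → ℝ) → ℝ) (w : Fin (d + 1) → ℂ) : Fin (d + 1) → ℂ :=
  Fin.cons (((F (qq w) : ℝ) : ℂ) + ((ctau F w : ℝ) : ℂ) * I)
    (fun b => ee (-(ctau F w * Fu F b (qq w))) * w b.succ)

theorem clift_zero (F : ℝ × (Fin d → ℝ) → ℝ) (w : Fin (d + 1) → ℂ) :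
    clift F w 0 = ((F (qq w) : ℝ) : ℂ) + ((ctau F w : ℝ) : ℂ) * I := rfl

theorem clift_succ (F : ℝ × (Fin d → ℝ) → ℝ) (w : Fin (d + 1) → ℂ) (b : Fin d) :
    clift F w b.succ = ee (-(ctau F w * Fu F b (qq w))) * w b.succ := rfl

theorem clift_re (F : ℝ × (Fin d → ℝ) → ℝ) (w : Fin (d + 1) → ℂ) :
    (clift F w 0).re = F (qq w) := by
  rw [clift_zero]; simp

theorem clift_im (F : ℝ × (Fin d → ℝ) → ℝ) (w : Fin (d + 1) → ℂ) :
    (clift F w 0).im = ctau F w := by
  rw [clift_zero]; simp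

theorem uu_clift (F : ℝ × (Fin d → ℝ) → ℝ) (w : Fin (d + 1) → ℂ) : uu (clift F w) = uu w := by
  funext b
  unfold uu
  rw [clift_succ, norm_mul, ee_norm, one_mul]

theorem qq_clift (F : ℝ × (Fin d → ℝ) → ℝ) (w : Fin (d + 1) → ℂ) :
    qq (clift F w) = (F (qq w), uu w) := by
  unfold qq
  rw [uu_clift, clift_re]
  rfl

section smooth

variable {F : ℝ × (Fin d → ℝ) → ℝ} {w : Fin (d + 1) → ℂ}

theorem Fe_contDiffAt {q : ℝ × (Fin d → ℝ)} (hF : ContDiffAt ℝ ∞ F q)
    (e : ℝ × (Fin d → ℝ)) : ContDiffAt ℝ ∞ (fun q => fderiv ℝ F q e) q :=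
  (hF.fderiv_right (m := ∞) (by simp)).clm_apply contDiffAt_const

theorem Fe_qq_contDiffAt (hF : ContDiffAt ℝ ∞ F (qq w)) (e : ℝ × (Fin d → ℝ)) :
    ContDiffAt ℝ ∞ (fun w => fderiv ℝ F (qq w) e) w :=
  ContDiffAt.comp (g := fun q => fderiv ℝ F q e) w (Fe_contDiffAt hF e) qq_contDiff.contDiffAt

theorem ctau_contDiffAt (hF : ContDiffAt ℝ ∞ F (qq w)) (h0 : Fp F (qq w) ≠ 0) :
    ContDiffAt ℝ ∞ (ctau F) w := by
  unfold ctau Fp
  have h1 : ContDiffAt ℝ ∞ (fun w : Fin (d + 1) → ℂ => (w 0).im) w :=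
    (imCLM.contDiff.comp (contDiff_apply ℝ ℂ (0 : Fin (d + 1)))).contDiffAt
  exact h1.div (Fe_qq_contDiffAt hF _) h0

theorem clift_contDiffAt (hF : ContDiffAt ℝ ∞ F (qq w)) (h0 : Fp F (qq w) ≠ 0) :
    ContDiffAt ℝ ∞ (clift F) w := by
  rw [contDiffAt_pi]
  intro j
  refine Fin.cases ?_ (fun b => ?_) j
  · have h1 : ContDiffAt ℝ ∞ (fun w => F (qq w)) w :=
      ContDiffAt.comp (g := F) w hF qq_contDiff.contDiffAt
    have h2 := ofRealCLM.contDiff.contDiffAt.comp w h1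
    have h3 := ofRealCLM.contDiff.contDiffAt.comp w (ctau_contDiffAt hF h0)
    exact h2.add (h3.mul contDiffAt_const)
  · have h1 := (ctau_contDiffAt hF h0).mul (Fe_qq_contDiffAt hF (0, Pi.single b 1))
    have h2 := ee_contDiff.contDiffAt.comp w h1.neg
    exact h2.mul (contDiff_apply ℝ ℂ (b.succ : Fin (d + 1))).contDiffAt

theorem Fe_fderiv {q : ℝ × (Fin d → ℝ)} (hF : ContDiffAt ℝ ∞ F q) (x e : ℝ × (Fin d → ℝ)) :
    fderiv ℝ (fun q => fderiv ℝ F q e) q x = fderiv ℝ (fderiv ℝ F) q x e := by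
  have h1 : HasFDerivAt (fderiv ℝ F) (fderiv ℝ (fderiv ℝ F) q) q :=
    ((hF.fderiv_right (m := ∞) (by simp)).differentiableAt (by simp)).hasFDerivAt
  have h2 := h1.clm_apply (hasFDerivAt_const e q)
  rw [h2.fderiv]
  simp

theorem hess_symmAt {q : ℝ × (Fin d → ℝ)} (hF : ContDiffAt ℝ ∞ F q) (x y : ℝ × (Fin d → ℝ)) :
    fderiv ℝ (fderiv ℝ F) q x y = fderiv ℝ (fderiv ℝ F) q y x := by
  have h1 : IsSymmSndFDerivAt ℝ F q := hF.isSymmSndFDerivAt (by
    rw [minSmoothness_of_isRCLikeNormedField]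
    exact WithTop.coe_le_coe.2 le_top)
  exact h1 x y

/-- the derivative of `w ↦ F_e (qq w)` -/
theorem Fe_qq_hasFDerivAt (hF : ContDiffAt ℝ ∞ F (qq w)) (e : ℝ × (Fin d → ℝ)) :
    HasFDerivAt (fun w => fderiv ℝ F (qq w) e)
      ((fderiv ℝ (fun q => fderiv ℝ F q e) (qq w)).comp (qL w)) w :=
  HasFDerivAt.comp (g := fun q => fderiv ℝ F q e) w
    ((Fe_contDiffAt hF e).differentiableAt (by simp)).hasFDerivAt (qq_hasFDerivAt w)

/-- **The cotangent lift is symplectic.** -/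
theorem clift_sympl (hF : ContDiffAt ℝ ∞ F (qq w)) (h0 : Fp F (qq w) ≠ 0)
    (v v' : Fin (d + 1) → ℂ) :
    omega (fderiv ℝ (clift F) w v) (fderiv ℝ (clift F) w v') = omega v v' := by
  have hd : DifferentiableAt ℝ (clift F) w := (clift_contDiffAt hF h0).differentiableAt (by simp)
  have hslot : ∀ (j : Fin (d + 1)) (v : Fin (d + 1) → ℂ),
      fderiv ℝ (clift F) w v j = fderiv ℝ (fun w => clift F w j) w v := by
    intro j v
    have h1 := (hasFDerivAt_pi'.1 hd.hasFDerivAt) j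
    rw [h1.fderiv]
    rfl
  have hom : ∀ x y : Fin (d + 1) → ℂ, omega x y = om1 (x 0) (y 0) +
      ∑ b : Fin d, om1 (x b.succ) (y b.succ) := by
    intro x y
    unfold omega
    rw [Fin.sum_univ_succ]
    rfl
  -- the derivative of `τ`
  have hτd : DifferentiableAt ℝ (ctau F) w := (ctau_contDiffAt hF h0).differentiableAt (by simp)
  set T : (Fin (d + 1) → ℂ) →L[ℝ] ℝ := fderiv ℝ (ctau F) w with hT
  have hτ : HasFDerivAt (ctau F) T w := hτd.hasFDerivAt
  set H : (ℝ × (Fin d → ℝ)) → (ℝ × (Fin d → ℝ)) → ℝ :=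
    fun x y => fderiv ℝ (fderiv ℝ F) (qq w) x y with hH
  have hpr : ∀ j : Fin (d + 1), HasFDerivAt (fun w : Fin (d + 1) → ℂ => w j)
      (ContinuousLinearMap.proj (R := ℝ) (φ := fun _ : Fin (d + 1) => ℂ) j) w :=
    fun j => (ContinuousLinearMap.proj (R := ℝ) (φ := fun _ : Fin (d + 1) => ℂ) j).hasFDerivAt
  have key : ∀ v : Fin (d + 1) → ℂ, (v 0).im = T v * Fp F (qq w) + ctau F w * H (qL w v) (1, 0) := by
    intro v
    have h1 : HasFDerivAt (fun w : Fin (d + 1) → ℂ => (w 0).im)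
        (imCLM.comp (ContinuousLinearMap.proj (R := ℝ) (φ := fun _ : Fin (d + 1) => ℂ) 0)) w :=
      imCLM.hasFDerivAt.comp w (hpr 0)
    have h2 := hτ.mul (Fe_qq_hasFDerivAt hF (1, 0))
    have hev : (fun w : Fin (d + 1) → ℂ => (w 0).im) =ᶠ[nhds w]
        (fun w => ctau F w * fderiv ℝ F (qq w) (1, 0)) := by
      have hne : ∀ᶠ w' in nhds w, fderiv ℝ F (qq w') (1, 0) ≠ 0 :=
        (Fe_qq_contDiffAt hF (1, 0)).continuousAt.eventually_ne h0
      filter_upwards [hne] with w' hw'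
      unfold ctau Fp
      field_simp
    have h3 := (h2.congr_of_eventuallyEq hev).unique h1
    have h4 := congrArg (fun L : (Fin (d + 1) → ℂ) →L[ℝ] ℝ => L v) h3
    simp only [ContinuousLinearMap.add_apply, ContinuousLinearMap.smul_apply, smul_eq_mul,
      ContinuousLinearMap.comp_apply, ContinuousLinearMap.proj_apply, imCLM_apply] at h4
    rw [Fe_fderiv hF] at h4
    rw [← h4]
    simp only [hH, Fp]
    ring
  -- slot 0
  have h0s : om1 (fderiv ℝ (clift F) w v 0) (fderiv ℝ (clift F) w v' 0) =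
      fderiv ℝ F (qq w) (qL w v) * T v' - fderiv ℝ F (qq w) (qL w v') * T v := by
    have h1 : HasFDerivAt (fun w => F (qq w)) ((fderiv ℝ F (qq w)).comp (qL w)) w :=
      HasFDerivAt.comp (g := F) w (hF.differentiableAt (by simp)).hasFDerivAt (qq_hasFDerivAt w)
    have h2 : HasFDerivAt (fun w => clift F w 0)
        (ofRealCLM.comp ((fderiv ℝ F (qq w)).comp (qL w)) + (ofRealCLM.comp T).smulRight I) w := by
      have h3 : HasFDerivAt (fun w => ((F (qq w) : ℝ) : ℂ))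
          (ofRealCLM.comp ((fderiv ℝ F (qq w)).comp (qL w))) w := ofRealCLM.hasFDerivAt.comp w h1
      have h4 : HasFDerivAt (fun w => ((ctau F w : ℝ) : ℂ)) (ofRealCLM.comp T) w :=
        ofRealCLM.hasFDerivAt.comp w hτ
      refine (h3.add (h4.mul_const I)).congr_fderiv ?_
      ext v
      simp
      ring
    rw [hslot, hslot, h2.fderiv]
    unfold om1
    simp
    ring
  -- slot b
  have hbs : ∀ b : Fin d, om1 (fderiv ℝ (clift F) w v b.succ) (fderiv ℝ (clift F) w v' b.succ) =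
      om1 (v b.succ) (v' b.succ) - ((qL w v).2 b * (T v' * Fu F b (qq w) +
        ctau F w * H (qL w v') (0, Pi.single b 1)) - (qL w v').2 b * (T v * Fu F b (qq w) +
        ctau F w * H (qL w v) (0, Pi.single b 1))) := by
    intro b
    have h1 := (hτ.mul (Fe_qq_hasFDerivAt hF (0, Pi.single b 1))).neg
    have h2 := om1_phase (ψ := fun w => -(ctau F w * Fu F b (qq w)))
      (h := fun w : Fin (d + 1) → ℂ => w b.succ) h1 (hpr b.succ) v v'
    rw [hslot, hslot]
    have h3 : (fun w => clift F w b.succ) =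
        fun w => ee (-(ctau F w * Fu F b (qq w))) * w b.succ := rfl
    rw [h3, h2]
    unfold wd
    simp only [ContinuousLinearMap.comp_apply, arD_apply, ContinuousLinearMap.neg_apply,
      ContinuousLinearMap.add_apply, ContinuousLinearMap.smul_apply, smul_eq_mul,
      ContinuousLinearMap.proj_apply, Fe_fderiv hF, qL_snd]
    simp only [hH, Fu]
    ring
  rw [hom, hom, h0s, Finset.sum_congr rfl fun b _ => hbs b]
  rw [Finset.sum_sub_distrib]
  have e1 := lin_expand (fderiv ℝ F (qq w)) (qL w v)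
  have e2 := lin_expand (fderiv ℝ F (qq w)) (qL w v')
  have e3 := lin_expand (fderiv ℝ (fderiv ℝ F) (qq w) (qL w v')) (qL w v)
  have e4 := lin_expand (fderiv ℝ (fderiv ℝ F) (qq w) (qL w v)) (qL w v')
  have e5 := hess_symmAt hF (qL w v) (qL w v')
  have hs : ∑ b : Fin d, ((qL w v).2 b * (T v' * Fu F b (qq w) +
        ctau F w * H (qL w v') (0, Pi.single b 1)) - (qL w v').2 b * (T v * Fu F b (qq w) +
        ctau F w * H (qL w v) (0, Pi.single b 1))) =
      T v' * (∑ b, (qL w v).2 b * Fu F b (qq w)) - T v * (∑ b, (qL w v').2 b * Fu F b (qq w)) +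
      ctau F w * ((∑ b, (qL w v).2 b * H (qL w v') (0, Pi.single b 1)) -
        ∑ b, (qL w v').2 b * H (qL w v) (0, Pi.single b 1)) := by
    rw [Finset.mul_sum, Finset.mul_sum, ← Finset.sum_sub_distrib, ← Finset.sum_sub_distrib,
      Finset.mul_sum, ← Finset.sum_add_distrib]
    refine Finset.sum_congr rfl fun b _ => ?_
    ring
  rw [hs]
  have hp : ∀ v : Fin (d + 1) → ℂ, (qL w v).1 = (v 0).re := fun v => rfl
  rw [hp] at e1 e2 e3 e4
  have k1 := key v
  have k2 := key v'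
  have o1 : om1 (v 0) (v' 0) = (v 0).re * (v' 0).im - (v 0).im * (v' 0).re := rfl
  rw [o1, k1, k2, e1, e2]
  simp only [hH] at *
  unfold Fp Fu at *
  linear_combination (ctau F w) * e5 + (ctau F w) * e3 - (ctau F w) * e4

end smooth

/-- congruence of the lift: only the germ of `F` at `qq w` matters -/
theorem clift_congr {F G : ℝ × (Fin d → ℝ) → ℝ} {w : Fin (d + 1) → ℂ}
    (h : F =ᶠ[nhds (qq w)] G) : clift F w = clift G w := by
  have h1 : fderiv ℝ F (qq w) = fderiv ℝ G (qq w) := h.fderiv_eq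
  have h2 : ctau F w = ctau G w := by unfold ctau Fp; rw [h1]
  funext j
  refine Fin.cases ?_ (fun b => ?_) j
  · rw [clift_zero, clift_zero, h2, h.eq_of_nhds]
  · rw [clift_succ, clift_succ, h2]
    unfold Fu
    rw [h1]

/-- composition of cotangent lifts -/
theorem clift_comp {F G : ℝ × (Fin d → ℝ) → ℝ} {w : Fin (d + 1) → ℂ}
    (hF : DifferentiableAt ℝ F (qq w)) (hG : DifferentiableAt ℝ G (F (qq w), uu w))
    (hF0 : Fp F (qq w) ≠ 0) (hG0 : Fp G (F (qq w), uu w) ≠ 0) :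
    clift G (clift F w) = clift (fun q => G (F q, q.2)) w := by
  have hq : qq (clift F w) = (F (qq w), uu w) := qq_clift F w
  have h1 : HasFDerivAt (fun q : ℝ × (Fin d → ℝ) => G (F q, q.2))
      ((fderiv ℝ G (F (qq w), uu w)).comp ((fderiv ℝ F (qq w)).prod
        (ContinuousLinearMap.snd ℝ ℝ (Fin d → ℝ)))) (qq w) :=
    HasFDerivAt.comp (g := G) (f := fun q : ℝ × (Fin d → ℝ) => (F q, q.2)) (qq w)
      hG.hasFDerivAt (hF.hasFDerivAt.prodMk hasFDerivAt_snd)
  have hlin : ∀ (a : ℝ) (x : Fin d → ℝ), fderiv ℝ G (F (qq w), uu w) (a, x) =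
      a * Fp G (F (qq w), uu w) + fderiv ℝ G (F (qq w), uu w) (0, x) := by
    intro a x
    have h2 : ((a, x) : ℝ × (Fin d → ℝ)) = a • ((1 : ℝ), (0 : Fin d → ℝ)) + (0, x) := by
      refine Prod.ext ?_ ?_ <;> simp
    rw [h2, map_add, map_smul, smul_eq_mul]
    rfl
  have hFp : Fp (fun q : ℝ × (Fin d → ℝ) => G (F q, q.2)) (qq w) =
      Fp F (qq w) * Fp G (F (qq w), uu w) := by
    unfold Fp at *
    rw [h1.fderiv]
    simp only [ContinuousLinearMap.comp_apply, ContinuousLinearMap.prod_apply,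
      ContinuousLinearMap.coe_snd']
    rw [hlin, show ((0 : ℝ), (0 : Fin d → ℝ)) = 0 from rfl, map_zero, add_zero]
  have hFu : ∀ b, Fu (fun q : ℝ × (Fin d → ℝ) => G (F q, q.2)) b (qq w) =
      Fu F b (qq w) * Fp G (F (qq w), uu w) + Fu G b (F (qq w), uu w) := by
    intro b
    unfold Fu at *
    rw [h1.fderiv]
    simp only [ContinuousLinearMap.comp_apply, ContinuousLinearMap.prod_apply,
      ContinuousLinearMap.coe_snd']
    rw [hlin]
  have hτ : ctau G (clift F w) = ctau (fun q : ℝ × (Fin d → ℝ) => G (F q, q.2)) w := by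
    unfold ctau
    rw [hFp, clift_im, hq]
    unfold ctau
    field_simp
  have hτ2 : ctau F w = ctau G (clift F w) * Fp G (F (qq w), uu w) := by
    rw [ctau, ctau, hq, clift_im, ctau]
    field_simp
  funext j
  refine Fin.cases ?_ (fun b => ?_) j
  · rw [clift_zero, clift_zero, hτ, hq]
    rfl
  · rw [clift_succ, clift_succ, clift_succ, ← mul_assoc, ← ee_add, ← hτ, hFu, hq, hτ2]
    have h3 : -(ctau G (clift F w) * Fu G b (F (qq w), uu w)) +
        -(ctau G (clift F w) * Fp G (F (qq w), uu w) * Fu F b (qq w)) =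
        -(ctau G (clift F w) *
          (Fu F b (qq w) * Fp G (F (qq w), uu w) + Fu G b (F (qq w), uu w))) := by ring
    rw [h3]

/-- the lift of the identity -/
theorem clift_id (w : Fin (d + 1) → ℂ) : clift (fun q => q.1) w = w := by
  have h1 : fderiv ℝ (fun q : ℝ × (Fin d → ℝ) => q.1) (qq w) =
      ContinuousLinearMap.fst ℝ ℝ (Fin d → ℝ) := fderiv_fst
  have h2 : ctau (fun q : ℝ × (Fin d → ℝ) => q.1) w = (w 0).im := by
    unfold ctau Fp
    rw [h1]
    simp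
  funext j
  refine Fin.cases ?_ (fun b => ?_) j
  · rw [clift_zero, h2]
    exact Complex.re_add_im _
  · rw [clift_succ, h2]
    unfold Fu
    rw [h1]
    simp [ee_zero]

/-- left inverse: if `G (F (p, u), u) = p` near the point -/
theorem clift_leftInv {F G : ℝ × (Fin d → ℝ) → ℝ} {w : Fin (d + 1) → ℂ}
    (hF : DifferentiableAt ℝ F (qq w)) (hG : DifferentiableAt ℝ G (F (qq w), uu w))
    (hF0 : Fp F (qq w) ≠ 0) (hG0 : Fp G (F (qq w), uu w) ≠ 0)
    (h : (fun q : ℝ × (Fin d → ℝ) => G (F q, q.2)) =ᶠ[nhds (qq w)] fun q => q.1) :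
    clift G (clift F w) = w := by
  rw [clift_comp hF hG hF0 hG0, clift_congr h, clift_id]

/-- injectivity of the lift -/
theorem clift_inj {F : ℝ × (Fin d → ℝ) → ℝ} {w w' : Fin (d + 1) → ℂ}
    (h0 : Fp F (qq w) ≠ 0)
    (hinj : uu w = uu w' → F (qq w) = F (qq w') → (w 0).re = (w' 0).re)
    (h : clift F w = clift F w') : w = w' := by
  have hu : uu w = uu w' := by rw [← uu_clift F w, ← uu_clift F w', h]
  have hF : F (qq w) = F (qq w') := by rw [← clift_re F w, ← clift_re F w', h]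
  have hre := hinj hu hF
  have hq : qq w = qq w' := Prod.ext hre hu
  have hτ : ctau F w = ctau F w' := by rw [← clift_im F w, ← clift_im F w', h]
  have him : (w 0).im = (w' 0).im := by
    unfold ctau at hτ
    rw [← hq] at hτ
    exact (div_left_inj' h0).1 hτ
  funext j
  refine Fin.cases ?_ (fun b => ?_) j
  · exact Complex.ext hre him
  · have h1 := congrFun h b.succ
    rw [clift_succ, clift_succ, hτ, hq] at h1
    exact mul_left_cancel₀ (ee_ne_zero _) h1

/-- where `F = p + g(u)`: the plain shear -/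
theorem clift_shear {F : ℝ × (Fin d → ℝ) → ℝ} {g : (Fin d → ℝ) → ℝ} {w : Fin (d + 1) → ℂ}
    (hF : F =ᶠ[nhds (qq w)] fun q => q.1 + g q.2) (hg : DifferentiableAt ℝ g (uu w)) :
    clift F w = Fin.cons (w 0 + ((g (uu w) : ℝ) : ℂ))
      (fun b => ee (-((w 0).im * fderiv ℝ g (uu w) (Pi.single b 1))) * w b.succ) := by
  have h1 : HasFDerivAt (fun q : ℝ × (Fin d → ℝ) => q.1 + g q.2)
      (ContinuousLinearMap.fst ℝ ℝ (Fin d → ℝ) +
        (fderiv ℝ g (uu w)).comp (ContinuousLinearMap.snd ℝ ℝ (Fin d → ℝ))) (qq w) :=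
    hasFDerivAt_fst.add (HasFDerivAt.comp (g := g) (qq w)
      (show HasFDerivAt g (fderiv ℝ g (uu w)) (qq w).2 from hg.hasFDerivAt) hasFDerivAt_snd)
  have h2 : ctau (fun q : ℝ × (Fin d → ℝ) => q.1 + g q.2) w = (w 0).im := by
    unfold ctau Fp
    rw [h1.fderiv]
    simp
  rw [clift_congr hF]
  funext j
  refine Fin.cases ?_ (fun b => ?_) j
  · rw [clift_zero, h2]
    simp only [Fin.cons_zero]
    apply Complex.ext <;> simp [qq]
  · rw [clift_succ, h2]
    unfold Fu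
    rw [h1.fderiv]
    simp

end Vale.Agent.P209.H721
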