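import Mathlib

/-!
# The seam: the interpolating function `t`, the solution `qs` of `q + t q Λ = Q`,
and the two inequalities
-/

namespace Vale.Agent.P209.H721

open scoped Topology ContDiff
open Set Filter MeasureTheory

/-- the interpolating function of the seam -/
structure TSpec (η : ℝ) (t t' : ℝ → ℝ) : Prop where
  pos : 0 < η
  smooth : ContDiff ℝ ∞ t
  smooth' : ContDiff ℝ ∞ t'
  deriv : ∀ q, HasDerivAt t (t' q) q
  odd : ∀ q, t (-q) = -t q
  even : ∀ q, t' (-q) = t' q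
  nonneg : ∀ q, 0 ≤ t' q
  anti : ∀ q q', |q| ≤ |q'| → t' q' ≤ t' q
  right : ∀ q, η / 2 ≤ q → t q = 1 / 2
  left : ∀ q, q ≤ -(η / 2) → t q = -(1 / 2)
  zero : ∀ q, η / 2 ≤ |q| → t' q = 0
  lip : ∃ L : ℝ, 0 < L ∧ ∀ q q', |t' q - t' q'| ≤ L * |q - q'|

/-- the bump -/
noncomputable def sb (η q : ℝ) : ℝ := expNegInvGlue (1 - (2 * q / η) ^ 2)

theorem sb_contDiff (η : ℝ) : ContDiff ℝ ∞ (sb η) := by
  unfold sb
  refine expNegInvGlue.contDiff.comp ?_
  exact contDiff_const.sub (((contDiff_const.mul contDiff_id).div_const η).pow 2)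

theorem sb_nonneg (η q : ℝ) : 0 ≤ sb η q := expNegInvGlue.nonneg _

theorem sb_even (η q : ℝ) : sb η (-q) = sb η q := by
  unfold sb
  congr 1
  ring

theorem sb_anti {η q q' : ℝ} (hη : 0 < η) (h : |q| ≤ |q'|) : sb η q' ≤ sb η q := by
  unfold sb
  refine expNegInvGlue.monotone ?_
  have h1 : (2 * q / η) ^ 2 ≤ (2 * q' / η) ^ 2 := by
    rw [div_pow, div_pow]
    refine div_le_div_of_nonneg_right ?_ (by positivity)
    have := sq_le_sq.2 h
    nlinarith
  linarith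

theorem sb_zero {η q : ℝ} (hη : 0 < η) (h : η / 2 ≤ |q|) : sb η q = 0 := by
  unfold sb
  refine expNegInvGlue.zero_of_nonpos ?_
  have h1 : 1 ≤ |2 * q / η| := by
    rw [abs_div, abs_mul, abs_of_pos hη, le_div_iff₀ hη]
    simp only [Nat.abs_ofNat]
    linarith
  have h2 : 1 ≤ (2 * q / η) ^ 2 := by
    rw [← sq_abs]
    nlinarith
  linarith

theorem sb_zero_pos {η : ℝ} : 0 < sb η 0 := by
  unfold sb
  refine expNegInvGlue.pos_of_pos ?_
  norm_num

/-- the primitive of the bump -/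
noncomputable def sB (η q : ℝ) : ℝ := ∫ s in (0 : ℝ)..q, sb η s

theorem sB_hasDerivAt (η q : ℝ) : HasDerivAt (sB η) (sb η q) q :=
  intervalIntegral.integral_hasDerivAt_right
    ((sb_contDiff η).continuous.intervalIntegrable _ _)
    ((sb_contDiff η).continuous.stronglyMeasurableAtFilter _ _)
    (sb_contDiff η).continuous.continuousAt

theorem sB_contDiff (η : ℝ) : ContDiff ℝ ∞ (sB η) := by
  have h1 : deriv (sB η) = sb η := funext fun q => (sB_hasDerivAt η q).deriv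
  have h2 : ContDiff ℝ (∞ + 1) (sB η) := by
    rw [contDiff_succ_iff_deriv]
    refine ⟨fun q => (sB_hasDerivAt η q).differentiableAt, ?_, ?_⟩
    · intro h
      exact absurd h (by simp)
    · rw [h1]
      exact sb_contDiff η
  simpa using h2

theorem sB_odd (η q : ℝ) : sB η (-q) = -sB η q := by
  unfold sB
  have h1 := intervalIntegral.integral_comp_neg (a := (0 : ℝ)) (b := q) (fun s => sb η s)
  simp only [sb_even, neg_zero] at h1
  rw [h1, intervalIntegral.integral_symm]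

theorem sB_mono (η : ℝ) : Monotone (sB η) :=
  monotone_of_deriv_nonneg (fun q => (sB_hasDerivAt η q).differentiableAt)
    fun q => by rw [(sB_hasDerivAt η q).deriv]; exact sb_nonneg η q

theorem sB_pos {η q : ℝ} (hq : 0 < q) : 0 < sB η q := by
  unfold sB
  refine intervalIntegral.integral_pos hq (sb_contDiff η).continuous.continuousOn
    (fun x _ => sb_nonneg η x) ⟨0, ⟨le_rfl, hq.le⟩, sb_zero_pos⟩

theorem sB_right {η q : ℝ} (hη : 0 < η) (hq : η / 2 ≤ q) : sB η q = sB η (η / 2) := by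
  unfold sB
  rw [← intervalIntegral.integral_add_adjacent_intervals
    ((sb_contDiff η).continuous.intervalIntegrable 0 (η / 2))
    ((sb_contDiff η).continuous.intervalIntegrable (η / 2) q)]
  have h1 : ∫ s in (η / 2)..q, sb η s = 0 := by
    rw [intervalIntegral.integral_congr (g := fun _ => (0 : ℝ))]
    · simp
    · intro s hs
      rw [uIcc_of_le hq] at hs
      exact sb_zero hη (hs.1.trans (le_abs_self s))
  rw [h1, add_zero]

theorem exists_t {η : ℝ} (hη : 0 < η) : ∃ t t' : ℝ → ℝ, TSpec η t t' := by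
  set N : ℝ := 2 * sB η (η / 2) with hN
  have hN0 : 0 < N := by
    have := sB_pos (η := η) (half_pos hη)
    positivity
  refine ⟨fun q => sB η q / N, fun q => sb η q / N, ?_⟩
  refine ⟨hη, (sB_contDiff η).div_const N, (sb_contDiff η).div_const N,
    fun q => (sB_hasDerivAt η q).div_const N, fun q => ?_, fun q => ?_, fun q => ?_,
    fun q q' h => ?_, fun q hq => ?_, fun q hq => ?_, fun q hq => ?_, ?_⟩
  · simp only [sB_odd]; ring
  · simp only [sb_even]
  · exact div_nonneg (sb_nonneg η q) hN0.le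
  · exact div_le_div_of_nonneg_right (sb_anti hη h) hN0.le
  · simp only [sB_right hη hq, hN]
    have := sB_pos (η := η) (half_pos hη)
    field_simp
  · have h1 : sB η q = -sB η (η / 2) := by
      have h2 := sB_right hη (q := -q) (by linarith)
      rw [sB_odd] at h2
      linarith
    simp only [h1, hN]
    have := sB_pos (η := η) (half_pos hη)
    field_simp
  · simp only [sb_zero hη hq, zero_div]
  · have h1 : ContDiff ℝ ∞ (fun q => sb η q / N) := (sb_contDiff η).div_const N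
    have h2 : HasCompactSupport (fun q => sb η q / N) := by
      refine HasCompactSupport.intro (K := Icc (-(η / 2)) (η / 2)) isCompact_Icc fun q hq => ?_
      rw [sb_zero hη, zero_div]
      by_contra h
      rw [not_le, abs_lt] at h
      exact hq ⟨h.1.le, h.2.le⟩
    obtain ⟨C, hC⟩ := (h1.of_le (by simp : (1 : WithTop ℕ∞) ≤ ∞)).lipschitzWith_of_hasCompactSupport
      h2 (by simp)
    refine ⟨C + 1, by positivity, fun q q' => ?_⟩
    have h3 := hC.dist_le_mul q q'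
    rw [Real.dist_eq, Real.dist_eq] at h3
    nlinarith [abs_nonneg (q - q')]

namespace TSpec

variable {η : ℝ} {t t' : ℝ → ℝ} (h : TSpec η t t')

include h

theorem mono : Monotone t :=
  monotone_of_deriv_nonneg (fun q => (h.deriv q).differentiableAt)
    fun q => by rw [(h.deriv q).deriv]; exact h.nonneg q

theorem t_zero : t 0 = 0 := by
  have := h.odd 0
  rw [neg_zero] at this
  linarith

theorem abs_t_le (q : ℝ) : |t q| ≤ 1 / 2 := by
  rw [_root_.abs_le]
  constructor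
  · rcases le_total q (-(η / 2)) with h1 | h1
    · rw [h.left q h1]
    · rw [← h.left _ le_rfl]
      exact h.mono h1
  · rcases le_total (η / 2) q with h1 | h1
    · rw [h.right q h1]
    · rw [← h.right _ le_rfl]
      exact h.mono h1

theorem t_nonneg {q : ℝ} (hq : 0 ≤ q) : 0 ≤ t q := by
  rw [← h.t_zero]; exact h.mono hq

theorem t_nonpos {q : ℝ} (hq : q ≤ 0) : t q ≤ 0 := by
  rw [← h.t_zero]; exact h.mono hq

theorem le_zero (q : ℝ) : t' q ≤ t' 0 := h.anti 0 q (by simp)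

/-- strict monotonicity of `q ↦ q + t q Λ` -/
theorem strictMono {Λ : ℝ} (hΛ : 0 < 1 + t' 0 * Λ) : StrictMono fun q => q + t q * Λ := by
  have hd : ∀ q, HasDerivAt (fun q => q + t q * Λ) (1 + t' q * Λ) q := fun q =>
    (hasDerivAt_id q).add ((h.deriv q).mul_const Λ)
  refine strictMono_of_deriv_pos fun q => ?_
  rw [(hd q).deriv]
  rcases le_total 0 Λ with h1 | h1
  · have := mul_nonneg (h.nonneg q) h1
    linarith
  · have h2 := mul_le_mul_of_nonpos_right (h.le_zero q) h1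
    linarith

theorem surj (Λ : ℝ) : Function.Surjective fun q => q + t q * Λ := by
  have hc : Continuous fun q => q + t q * Λ :=
    continuous_id.add (h.smooth.continuous.mul continuous_const)
  refine hc.surjective ?_ ?_
  · refine tendsto_atTop_mono (f := fun q => q + (-(1 / 2 * |Λ|))) (fun q => ?_)
      (tendsto_atTop_add_const_right _ _ tendsto_id)
    have h1 := h.abs_t_le q
    have h2 : |t q * Λ| ≤ 1 / 2 * |Λ| := by
      rw [abs_mul]; exact mul_le_mul_of_nonneg_right h1 (abs_nonneg _)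
    have h3 := neg_abs_le (t q * Λ)
    show q + (-(1 / 2 * |Λ|)) ≤ q + t q * Λ
    linarith
  · have hlim : Tendsto (fun q : ℝ => q + (1 / 2 * |Λ|)) atBot atBot :=
      tendsto_atBot_add_const_right _ _ tendsto_id
    refine tendsto_atBot_mono (fun q => ?_) hlim
    have h1 := h.abs_t_le q
    have h2 : |t q * Λ| ≤ 1 / 2 * |Λ| := by
      rw [abs_mul]; exact mul_le_mul_of_nonneg_right h1 (abs_nonneg _)
    have h3 := le_abs_self (t q * Λ)
    show q + t q * Λ ≤ q + (1 / 2 * |Λ|)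
    linarith

end TSpec

/-- the solution `q` of `q + t q Λ = Q` -/
noncomputable def qs (t : ℝ → ℝ) (x : ℝ × ℝ) : ℝ :=
  Function.invFun (fun q => q + t q * x.2) x.1

namespace TSpec

variable {η : ℝ} {t t' : ℝ → ℝ} (h : TSpec η t t')

include h

theorem qs_eq (x : ℝ × ℝ) : qs t x + t (qs t x) * x.2 = x.1 :=
  Function.rightInverse_invFun (h.surj x.2) x.1

theorem qs_unique {q Q Λ : ℝ} (hΛ : 0 < 1 + t' 0 * Λ) (hq : q + t q * Λ = Q) :
    qs t (Q, Λ) = q := by
  refine (h.strictMono hΛ).injective ?_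
  show qs t (Q, Λ) + t (qs t (Q, Λ)) * Λ = q + t q * Λ
  rw [hq]
  exact h.qs_eq (Q, Λ)

/-- the solution is smooth -/
theorem qs_contDiffAt {x : ℝ × ℝ} (hx : 0 < 1 + t' 0 * x.2) : ContDiffAt ℝ ∞ (qs t) x := by
  set q₀ : ℝ := qs t x with hq₀
  let Φ : ℝ × ℝ → ℝ × ℝ := fun y => (y.1 + t y.1 * y.2, y.2)
  have hΦ : ContDiff ℝ ∞ Φ :=
    (contDiff_fst.add ((h.smooth.comp contDiff_fst).mul contDiff_snd)).prodMk contDiff_snd
  set k : ℝ := 1 + t' q₀ * x.2 with hk
  have hk0 : 0 < k := by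
    rcases le_total 0 x.2 with h1 | h1
    · have := mul_nonneg (h.nonneg q₀) h1
      linarith
    · have h2 := mul_le_mul_of_nonpos_right (h.le_zero q₀) h1
      linarith
  let A : ℝ × ℝ →L[ℝ] ℝ × ℝ :=
    (k • ContinuousLinearMap.fst ℝ ℝ ℝ + t q₀ • ContinuousLinearMap.snd ℝ ℝ ℝ).prod
      (ContinuousLinearMap.snd ℝ ℝ ℝ)
  let B : ℝ × ℝ →L[ℝ] ℝ × ℝ :=
    (k⁻¹ • (ContinuousLinearMap.fst ℝ ℝ ℝ - t q₀ • ContinuousLinearMap.snd ℝ ℝ ℝ)).prod
      (ContinuousLinearMap.snd ℝ ℝ ℝ)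
  let e : (ℝ × ℝ) ≃L[ℝ] (ℝ × ℝ) := ContinuousLinearEquiv.equivOfInverse A B
    (by
      intro y
      refine Prod.ext ?_ rfl
      simp only [A, B, ContinuousLinearMap.prod_apply, ContinuousLinearMap.add_apply,
        ContinuousLinearMap.sub_apply, ContinuousLinearMap.smul_apply,
        ContinuousLinearMap.coe_fst', ContinuousLinearMap.coe_snd', smul_eq_mul]
      field_simp
      ring)
    (by
      intro y
      refine Prod.ext ?_ rfl
      simp only [A, B, ContinuousLinearMap.prod_apply, ContinuousLinearMap.add_apply,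
        ContinuousLinearMap.sub_apply, ContinuousLinearMap.smul_apply,
        ContinuousLinearMap.coe_fst', ContinuousLinearMap.coe_snd', smul_eq_mul]
      field_simp
      ring)
  have hd : HasFDerivAt Φ (e : (ℝ × ℝ) →L[ℝ] (ℝ × ℝ)) (q₀, x.2) := by
    have h1 : HasFDerivAt (fun y : ℝ × ℝ => t y.1)
        ((t' q₀) • ContinuousLinearMap.fst ℝ ℝ ℝ) (q₀, x.2) := by
      have h2 := (h.deriv q₀).hasFDerivAt.comp (q₀, x.2)
        (hasFDerivAt_fst (𝕜 := ℝ) (p := ((q₀, x.2) : ℝ × ℝ)))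
      refine h2.congr_fderiv ?_
      ext y <;> simp
    have h3 := (hasFDerivAt_fst (𝕜 := ℝ) (p := ((q₀, x.2) : ℝ × ℝ))).add
      (h1.mul (hasFDerivAt_snd (𝕜 := ℝ) (p := ((q₀, x.2) : ℝ × ℝ))))
    refine (h3.prodMk (hasFDerivAt_snd (𝕜 := ℝ) (p := ((q₀, x.2) : ℝ × ℝ)))).congr_fderiv ?_
    refine ContinuousLinearMap.ext fun y => Prod.ext ?_ rfl
    simp [e, A, ContinuousLinearEquiv.equivOfInverse, hk]
    ring
  have hΦx : Φ (q₀, x.2) = x := Prod.ext (h.qs_eq x) rfl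
  have hs : ContDiffAt ℝ ∞ (hΦ.contDiffAt.localInverse hd (by simp)) (Φ (q₀, x.2)) :=
    ContDiffAt.to_localInverse hΦ.contDiffAt hd (by simp)
  rw [hΦx] at hs
  have hst : HasStrictFDerivAt Φ (e : (ℝ × ℝ) →L[ℝ] (ℝ × ℝ)) (q₀, x.2) :=
    hΦ.contDiffAt.hasStrictFDerivAt' hd (by simp)
  have hr : ∀ᶠ y in 𝓝 x, Φ (hΦ.contDiffAt.localInverse hd (by simp) y) = y := by
    have := hst.eventually_right_inverse
    rw [hΦx] at this
    exact this
  have hpos : ∀ᶠ y : ℝ × ℝ in 𝓝 x, 0 < 1 + t' 0 * y.2 := by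
    have hc : Continuous fun y : ℝ × ℝ => 1 + t' 0 * y.2 := by fun_prop
    exact hc.continuousAt.eventually (lt_mem_nhds hx)
  have hfin : ContDiffAt ℝ ∞ (fun y => (hΦ.contDiffAt.localInverse hd (by simp) y).1) x :=
    contDiff_fst.contDiffAt.comp x hs
  refine hfin.congr_of_eventuallyEq ?_
  filter_upwards [hr, hpos] with y hy hy2
  have h1 := congrArg Prod.fst hy
  have h2 := congrArg Prod.snd hy
  simp only [Φ] at h1 h2
  rw [h2] at h1
  exact h.qs_unique hy2 h1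

theorem qs_left {Q Λ : ℝ} (hΛ : 0 < 1 + t' 0 * Λ) (hQ : Q + Λ / 2 ≤ -(η / 2)) :
    qs t (Q, Λ) = Q + Λ / 2 := by
  refine h.qs_unique hΛ ?_
  rw [h.left _ hQ]
  ring

theorem qs_right {Q Λ : ℝ} (hΛ : 0 < 1 + t' 0 * Λ) (hQ : η / 2 ≤ Q - Λ / 2) :
    qs t (Q, Λ) = Q - Λ / 2 := by
  refine h.qs_unique hΛ ?_
  rw [h.right _ hQ]
  ring

/-- (I1) displacements with `Λ* ≤ Λ + e` move the points away from the seam, up to `e / 2` -/
theorem I1_pos {q q' Λ Λ' e : ℝ} (hΛ' : 0 ≤ Λ') (he : 0 ≤ e) (hΛ : Λ' ≤ Λ + e)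
    (hq : 0 ≤ q) (hΛ0 : 0 ≤ Λ) (heq : q + t q * Λ = q' + t q' * Λ') :
    0 ≤ q' ∧ q - e / 2 ≤ q' := by
  have h1 : 0 ≤ q' := by
    by_contra hlt
    rw [not_le] at hlt
    have h2 := mul_nonneg (h.t_nonneg hq) hΛ0
    have h3 : t q' * Λ' ≤ 0 := mul_nonpos_of_nonpos_of_nonneg (h.t_nonpos hlt.le) hΛ'
    linarith
  refine ⟨h1, ?_⟩
  by_contra hlt
  rw [not_le] at hlt
  have h2 : t q' ≤ t q := h.mono (by linarith)
  have h3 : t q' * (Λ + e) ≤ t q * Λ + t q' * e := by nlinarith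
  have h4 : t q' * Λ' ≤ t q' * (Λ + e) := mul_le_mul_of_nonneg_left hΛ (h.t_nonneg h1)
  have h5 : t q' ≤ 1 / 2 := (le_abs_self _).trans (h.abs_t_le q')
  have h6 : t q' * e ≤ 1 / 2 * e := mul_le_mul_of_nonneg_right h5 he
  linarith

theorem I1_neg {q q' Λ Λ' e : ℝ} (hΛ' : 0 ≤ Λ') (he : 0 ≤ e) (hΛ : Λ' ≤ Λ + e)
    (hq : q ≤ 0) (hΛ0 : 0 ≤ Λ) (heq : q + t q * Λ = q' + t q' * Λ') :
    q' ≤ 0 ∧ q' ≤ q + e / 2 := by
  have h1 := h.I1_pos (q := -q) (q' := -q') hΛ' he hΛ (by linarith) hΛ0 (by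
    rw [h.odd, h.odd]; linarith)
  exact ⟨by linarith [h1.1], by linarith [h1.2]⟩

theorem I1_abs {q q' Λ Λ' e : ℝ} (hΛ' : 0 ≤ Λ') (he : 0 ≤ e) (hΛ : Λ' ≤ Λ + e)
    (hΛ0 : 0 ≤ Λ) (heq : q + t q * Λ = q' + t q' * Λ') : |q| - e / 2 ≤ |q'| := by
  rcases le_total 0 q with hq | hq
  · have h1 := h.I1_pos hΛ' he hΛ hq hΛ0 heq
    rw [abs_of_nonneg hq, abs_of_nonneg h1.1]
    exact h1.2
  · have h1 := h.I1_neg hΛ' he hΛ hq hΛ0 heq
    rw [abs_of_nonpos hq, abs_of_nonpos h1.1]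
    linarith [h1.2]

/-- the derivative of `t` after a displacement -/
theorem t'_le {q q' e L : ℝ} (hL : ∀ q q', |t' q - t' q'| ≤ L * |q - q'|) (he : 0 ≤ e)
    (hL0 : 0 ≤ L) (hq : |q| - e / 2 ≤ |q'|) : t' q' ≤ t' q + L * (e / 2) := by
  rcases le_total |q| |q'| with h1 | h1
  · have := h.anti q q' h1
    have : 0 ≤ L * (e / 2) := by positivity
    linarith
  · have h2 : t' q' = t' |q'| := by
      rcases abs_choice q' with h3 | h3 <;> rw [h3]
      rw [h.even]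
    have h4 : t' q = t' |q| := by
      rcases abs_choice q with h3 | h3 <;> rw [h3]
      rw [h.even]
    have h5 := hL |q'| |q|
    rw [← h2, ← h4] at h5
    have h6 : |(|q'| - |q|)| ≤ e / 2 := by
      rw [abs_sub_comm, abs_of_nonneg (by linarith)]
      linarith
    have h7 := le_abs_self (t' q' - t' q)
    have h8 : L * |(|q'| - |q|)| ≤ L * (e / 2) := mul_le_mul_of_nonneg_left h6 hL0
    linarith

/-- (I2) the conjugate angle grows at most by the factor `1 + δ` -/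
theorem I2 {δ M : ℝ} (hδ : 0 < δ) (hM : 0 ≤ M) : ∃ e₀ : ℝ, 0 < e₀ ∧
    ∀ e q q' Λ Λ', 0 ≤ e → e ≤ e₀ → 0 ≤ Λ' → 0 ≤ Λ → Λ ≤ M → Λ' ≤ Λ + e →
      q + t q * Λ = q' + t q' * Λ' → 1 + t' q' * Λ' ≤ (1 + t' q * Λ) * (1 + δ) := by
  obtain ⟨L, hL0, hL⟩ := h.lip
  have hT : 0 ≤ t' 0 := h.nonneg 0
  refine ⟨min 1 (δ / (L * (M + 1) + t' 0 + 1)), lt_min one_pos (by positivity), ?_⟩
  intro e q q' Λ Λ' he he0 hΛ' hΛ hΛM hΛΛ heq
  have h1 := h.I1_abs hΛ' he hΛΛ hΛ heq
  have h2 := h.t'_le hL he hL0.le h1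
  have he1 : e ≤ 1 := he0.trans (min_le_left _ _)
  have he2 : e * (L * (M + 1) + t' 0 + 1) ≤ δ := by
    rw [← le_div_iff₀ (by positivity)]
    exact he0.trans (min_le_right _ _)
  have h3 : t' q' * Λ' ≤ (t' q + L * (e / 2)) * (Λ + e) :=
    mul_le_mul h2 hΛΛ hΛ' (by have := h.nonneg q; positivity)
  have h4 : (t' q + L * (e / 2)) * (Λ + e) ≤ t' q * Λ + t' 0 * e + L * (e / 2) * (M + 1) := by
    have h5 : t' q * e ≤ t' 0 * e := mul_le_mul_of_nonneg_right (h.le_zero q) he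
    have h6 : L * (e / 2) * (Λ + e) ≤ L * (e / 2) * (M + 1) :=
      mul_le_mul_of_nonneg_left (by linarith) (by positivity)
    nlinarith
  have h7 : t' 0 * e + L * (e / 2) * (M + 1) ≤ δ := by
    have h8 : L * (e / 2) * (M + 1) ≤ e * (L * (M + 1)) := by
      have : 0 ≤ L * e * (M + 1) := by positivity
      nlinarith
    nlinarith
  have h9 : 0 ≤ t' q * Λ := mul_nonneg (h.nonneg q) hΛ
  have h10 : 0 ≤ t' q * Λ * δ := mul_nonneg h9 hδ.le
  nlinarith

omit h in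
/-- consequence for the real angle -/
theorem theta_lt {δ θ a b : ℝ} (hθ : 0 < θ) (hθ1 : θ * (1 + δ) < 1) (ha : 0 < a)
    (hb : 0 < b) (hab : b ≤ a * (1 + δ)) : 0 < θ * b / a ∧ θ * b / a < 1 := by
  refine ⟨by positivity, ?_⟩
  rw [div_lt_one ha]
  have h1 : θ * b ≤ θ * (a * (1 + δ)) := mul_le_mul_of_nonneg_left hab hθ.le
  have h2 : θ * (a * (1 + δ)) = a * (θ * (1 + δ)) := by ring
  have h3 : a * (θ * (1 + δ)) < a * 1 := mul_lt_mul_of_pos_left hθ1 ha
  linarith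

end TSpec

end Vale.Agent.P209.H721
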