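import Vale.Agent.P209.H687.Defs

set_option linter.all false

/-!
# The row `RowTQ`: the change of time on the two halves
-/

namespace Vale.Agent.P209.H721

open Vale.Agent.P209 H578 H684 H974 H687
open scoped ContDiff
open Complex

section general

variable {d : ℕ}

/-- change of time with shift `a` and length `L` -/
noncomputable def FX (t : ℝ → ℝ) (a L : (Fin d → ℝ) → ℝ) (q : ℝ × (Fin d → ℝ)) : ℝ :=
  (q.1 + a q.2) + t (q.1 + a q.2) * L q.2

variable {t : ℝ → ℝ} {a L : (Fin d → ℝ) → ℝ}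

theorem FX_contDiff (ht : ContDiff ℝ ∞ t) (ha : ContDiff ℝ ∞ a) (hL : ContDiff ℝ ∞ L) :
    ContDiff ℝ ∞ (FX t a L) := by
  unfold FX
  have h1 : ContDiff ℝ ∞ (fun q : ℝ × (Fin d → ℝ) => q.1 + a q.2) :=
    contDiff_fst.add (ha.comp contDiff_snd)
  exact h1.add ((ht.comp h1).mul (hL.comp contDiff_snd))

theorem FX_Fp (ht : ContDiff ℝ ∞ t) (ha : ContDiff ℝ ∞ a) (hL : ContDiff ℝ ∞ L)
    (q : ℝ × (Fin d → ℝ)) : Fp (FX t a L) q = 1 + deriv t (q.1 + a q.2) * L q.2 := by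
  have h1 : HasFDerivAt (FX t a L) (fderiv ℝ (FX t a L) q) q :=
    ((FX_contDiff ht ha hL).differentiable (by simp) q).hasFDerivAt
  have h2 : HasDerivAt (fun s : ℝ => (q.1 + s, q.2)) ((1 : ℝ), (0 : Fin d → ℝ)) 0 := by
    have h3 : HasDerivAt (fun s : ℝ => q.1 + s) 1 0 := (hasDerivAt_id (0 : ℝ)).const_add q.1
    exact h3.prodMk (hasDerivAt_const (0 : ℝ) q.2)
  have h3 : HasFDerivAt (FX t a L) (fderiv ℝ (FX t a L) q) ((fun s : ℝ => (q.1 + s, q.2)) 0) := by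
    have e : (fun s : ℝ => (q.1 + s, q.2)) 0 = q := by simp
    rw [e]
    exact h1
  have h4 : HasDerivAt (fun s : ℝ => FX t a L (q.1 + s, q.2))
      (fderiv ℝ (FX t a L) q ((1 : ℝ), (0 : Fin d → ℝ))) 0 :=
    HasFDerivAt.comp_hasDerivAt (l := FX t a L) (f := fun s : ℝ => (q.1 + s, q.2)) 0 h3 h2
  have h5 : HasDerivAt (fun s : ℝ => FX t a L (q.1 + s, q.2))
      (1 + deriv t (q.1 + a q.2) * L q.2) 0 := by
    have k1 : HasDerivAt (fun s : ℝ => q.1 + s + a q.2) 1 0 :=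
      ((hasDerivAt_id (0 : ℝ)).const_add q.1).add_const (a q.2)
    have k2 : HasDerivAt t (deriv t (q.1 + a q.2)) (q.1 + 0 + a q.2) := by
      rw [add_zero]
      exact (ht.differentiable (by simp) _).hasDerivAt
    have k3 := (HasDerivAt.comp (0 : ℝ) k2 k1).mul_const (L q.2)
    have k4 := k1.add k3
    rw [mul_one] at k4
    exact k4
  exact h4.unique h5

/-- where `t` is locally the constant `k`, the change of time is a shear -/
theorem FX_shear {k : ℝ} (ha : ContDiff ℝ ∞ a) (hL : ContDiff ℝ ∞ L)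
    {w : Fin (d + 1) → ℂ} (h : ∀ᶠ q in nhds (qq w), t (q.1 + a q.2) = k) :
    clift (FX t a L) w = Fin.cons (w 0 + ((a (uu w) + k * L (uu w) : ℝ) : ℂ))
      (fun b => ee (-((w 0).im * fderiv ℝ (fun u => a u + k * L u) (uu w) (Pi.single b 1))) *
        w b.succ) := by
  refine clift_shear (g := fun u => a u + k * L u) ?_ ?_
  · filter_upwards [h] with q hq
    unfold FX
    rw [hq]
    ring
  · exact (ha.differentiable (by simp) _).add ((hL.differentiable (by simp) _).const_mul k)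

/-- a shear with integral derivatives commutes with the integral shifts -/
theorem FX_period {k : ℝ} (ha : ContDiff ℝ ∞ a) (hL : ContDiff ℝ ∞ L)
    {w : Fin (d + 1) → ℂ} (h : ∀ᶠ q in nhds (qq w), t (q.1 + a q.2) = k) (n : Fin d → ℤ)
    (hn : ∀ b, fderiv ℝ (fun u => a u + k * L u) (uu w) (Pi.single b 1) = n b) (l : ℤ) :
    clift (FX t a L) (sft l w) = sft l (clift (FX t a L) w) := by
  have hq : qq (sft l w) = qq w := by
    unfold qq
    rw [sft_re, uu_sft]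
  have h' : ∀ᶠ q in nhds (qq (sft l w)), t (q.1 + a q.2) = k := by
    rw [hq]
    exact h
  rw [FX_shear ha hL h, FX_shear ha hL h']
  funext j
  refine Fin.cases ?_ (fun b => ?_) j
  · rw [sft_zero_slot, sft_zero_slot, Fin.cons_zero, Fin.cons_zero, uu_sft]
    ring
  · rw [sft_succ, Fin.cons_succ, Fin.cons_succ, sft_succ, uu_sft, hn, sft_im]
    have e1 : -(((w 0).im + l) * (n b : ℝ)) = -((w 0).im * (n b : ℝ)) + ((-(l * n b) : ℤ) : ℝ) := by
      push_cast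
      ring
    rw [e1, ee_add, ee_int, mul_one]

/-- the deck map on a reduced point is a cotangent lift -/
theorem Tk_eq_clift {C : (Fin d → ℝ) → ℝ} (hC : ContDiff ℝ ∞ C) (w : Fin (d + 1) → ℂ) :
    Tk C 1 (sft (-⌊(w 0).im⌋) w) = clift (fun q => q.1 + (-C q.2)) (sft (-⌊(w 0).im⌋) w) := by
  have hd : DifferentiableAt ℝ C (uu (sft (-⌊(w 0).im⌋) w)) := hC.differentiable (by simp) _
  rw [clift_shear (g := fun u => -C u) (Filter.Eventually.of_forall fun q => rfl) hd.neg]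
  have him : (sft (-⌊(w 0).im⌋) w 0).im = Int.fract (w 0).im := by
    rw [sft_im]
    unfold Int.fract
    push_cast
    ring
  funext j
  refine Fin.cases ?_ (fun b => ?_) j
  · rw [Tk_zero_slot, Fin.cons_zero]
    push_cast
    ring
  · rw [Tk_succ, Fin.cons_succ, him, Int.fract_fract]
    have h1 : fderiv ℝ (fun u => -C u) (uu (sft (-⌊(w 0).im⌋) w)) =
        -fderiv ℝ C (uu (sft (-⌊(w 0).im⌋) w)) := hd.hasFDerivAt.neg.fderiv
    rw [h1]
    unfold pd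
    simp

end general

variable {R c m η : ℝ}

theorem Lam_contDiff (c m : ℝ) : ContDiff ℝ ∞ (Lam c m) := by
  unfold Lam
  have h0 : ContDiff ℝ ∞ (fun u : Fin 2 → ℝ => u 0) := contDiff_apply ℝ ℝ 0
  have h1 : ContDiff ℝ ∞ (fun u : Fin 2 → ℝ => u 1) := contDiff_apply ℝ ℝ 1
  exact (((contDiff_const.mul h0).add h1).add (contDiff_const.mul
    ((chi_contDiff (m / 100)).comp ((h0.add h1).sub contDiff_const)))).add contDiff_const

theorem Pm_contDiff (R c : ℝ) : ContDiff ℝ ∞ (Pm R c) := by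
  unfold Pm
  have h0 : ContDiff ℝ ∞ (fun u : Fin 2 → ℝ => u 0) := contDiff_apply ℝ ℝ 0
  have h1 : ContDiff ℝ ∞ (fun u : Fin 2 → ℝ => u 1) := contDiff_apply ℝ ℝ 1
  exact (contDiff_const.sub (contDiff_const.mul h0)).sub (contDiff_const.mul h1)

theorem Cm_contDiff (R c m : ℝ) : ContDiff ℝ ∞ (Cm R c m) := by
  unfold Cm
  exact (Pm_contDiff R c).sub (Lam_contDiff c m)

theorem Pm_hasFDerivAt (R c : ℝ) (u : Fin 2 → ℝ) : HasFDerivAt (Pm R c)
    (-(4 : ℝ) • (ContinuousLinearMap.proj (R := ℝ) (φ := fun _ : Fin 2 => ℝ) 0) -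
      (6 : ℝ) • (ContinuousLinearMap.proj (R := ℝ) (φ := fun _ : Fin 2 => ℝ) 1)) u := by
  unfold Pm
  have h0 : HasFDerivAt (fun u : Fin 2 → ℝ => u 0)
    (ContinuousLinearMap.proj (R := ℝ) (φ := fun _ : Fin 2 => ℝ) 0) u :=
    (ContinuousLinearMap.proj (R := ℝ) (φ := fun _ : Fin 2 => ℝ) 0).hasFDerivAt
  have h1 : HasFDerivAt (fun u : Fin 2 → ℝ => u 1)
    (ContinuousLinearMap.proj (R := ℝ) (φ := fun _ : Fin 2 => ℝ) 1) u :=
    (ContinuousLinearMap.proj (R := ℝ) (φ := fun _ : Fin 2 => ℝ) 1).hasFDerivAt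
  refine (((h0.const_mul (4 : ℝ)).const_sub (3 * R + c)).sub
    (h1.const_mul (6 : ℝ))).congr_fderiv ?_
  ext v
  simp

theorem Lam_pos (hm : 0 < m) {u : Fin 2 → ℝ} (hu : u ∈ Vm R c m) :
    m / 2 - m / 25 < Lam c m u := by
  obtain ⟨h0, h1, -, -⟩ := hu
  have h2 := (chi_nonneg_aux (d := m / 100) (t := u 0 + u 1 - c) (by linarith)).1
  unfold Lam
  linarith

theorem FL_eq (t : ℝ → ℝ) (R c m : ℝ) :
    FL t R c m = FX t (fun u => -(Cm R c m u / 2)) (Lam c m) := by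
  funext q
  unfold FL FX
  rw [← sub_eq_add_neg]

theorem FR_eq (t : ℝ → ℝ) (R c m : ℝ) :
    FR t R c m = FX t (fun u => Cm R c m u / 2) (Lam c m) := rfl

theorem hC2 (R c m : ℝ) : ContDiff ℝ ∞ (fun u => Cm R c m u / 2) :=
  (Cm_contDiff R c m).div_const 2

theorem FL_contDiff {t : ℝ → ℝ} (ht : ContDiff ℝ ∞ t) (R c m : ℝ) :
    ContDiff ℝ ∞ (FL t R c m) := by
  rw [FL_eq]
  exact FX_contDiff ht (hC2 R c m).neg (Lam_contDiff c m)

theorem FR_contDiff {t : ℝ → ℝ} (ht : ContDiff ℝ ∞ t) (R c m : ℝ) :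
    ContDiff ℝ ∞ (FR t R c m) := by
  rw [FR_eq]
  exact FX_contDiff ht (hC2 R c m) (Lam_contDiff c m)

theorem FL_Fp {t : ℝ → ℝ} (ht : ContDiff ℝ ∞ t) (R c m : ℝ) (q : ℝ × (Fin 2 → ℝ)) :
    Fp (FL t R c m) q = 1 + deriv t (q.1 - Cm R c m q.2 / 2) * Lam c m q.2 := by
  rw [FL_eq, FX_Fp ht (hC2 R c m).neg (Lam_contDiff c m), ← sub_eq_add_neg]

theorem FR_Fp {t : ℝ → ℝ} (ht : ContDiff ℝ ∞ t) (R c m : ℝ) (q : ℝ × (Fin 2 → ℝ)) :
    Fp (FR t R c m) q = 1 + deriv t (q.1 + Cm R c m q.2 / 2) * Lam c m q.2 := by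
  rw [FR_eq, FX_Fp ht (hC2 R c m) (Lam_contDiff c m)]

theorem FL_Fp_ge {t : ℝ → ℝ} (ht : StepQ η t) (hm : 0 < m) {q : ℝ × (Fin 2 → ℝ)}
    (hq : q.2 ∈ Vm R c m) : 1 ≤ Fp (FL t R c m) q := by
  rw [FL_Fp ht.smooth]
  have h1 := Lam_pos hm hq
  have h2 := ht.deriv_nonneg (q.1 - Cm R c m q.2 / 2)
  have h3 : 0 ≤ Lam c m q.2 := by linarith
  have h4 := mul_nonneg h2 h3
  linarith

theorem FR_Fp_ge {t : ℝ → ℝ} (ht : StepQ η t) (hm : 0 < m) {q : ℝ × (Fin 2 → ℝ)}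
    (hq : q.2 ∈ Vm R c m) : 1 ≤ Fp (FR t R c m) q := by
  rw [FR_Fp ht.smooth]
  have h1 := Lam_pos hm hq
  have h2 := ht.deriv_nonneg (q.1 + Cm R c m q.2 / 2)
  have h3 : 0 ≤ Lam c m q.2 := by linarith
  have h4 := mul_nonneg h2 h3
  linarith

theorem step_neg {t : ℝ → ℝ} (ht : StepQ η t) {x : ℝ} (hx : x ≤ -(η / 2)) : t x = -(1 / 2) := by
  have h1 := ht.odd x
  have h2 := ht.one (-x) (by linarith)
  linarith

/-- away from the seam the left change of time is the integral shear -/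
theorem FL_near {t : ℝ → ℝ} (ht : StepQ η t) {q : ℝ × (Fin 2 → ℝ)}
    (hq : q.1 < Cm R c m q.2 / 2 - η / 2) :
    ∀ᶠ q' in nhds q, t (q'.1 + -(Cm R c m q'.2 / 2)) = -(1 / 2) := by
  have h1 : Continuous (fun q' : ℝ × (Fin 2 → ℝ) => q'.1 + -(Cm R c m q'.2 / 2)) :=
    continuous_fst.add ((hC2 R c m).continuous.comp continuous_snd).neg
  have h2 : ∀ᶠ q' in nhds q, q'.1 + -(Cm R c m q'.2 / 2) < -(η / 2) :=
    h1.continuousAt.eventually_lt continuousAt_const (by linarith)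
  filter_upwards [h2] with q' hq'
  exact step_neg ht hq'.le

theorem FR_near {t : ℝ → ℝ} (ht : StepQ η t) {q : ℝ × (Fin 2 → ℝ)}
    (hq : -(Cm R c m q.2 / 2) + η / 2 < q.1) :
    ∀ᶠ q' in nhds q, t (q'.1 + Cm R c m q'.2 / 2) = 1 / 2 := by
  have h1 : Continuous (fun q' : ℝ × (Fin 2 → ℝ) => q'.1 + Cm R c m q'.2 / 2) :=
    continuous_fst.add ((hC2 R c m).continuous.comp continuous_snd)
  have h2 : ∀ᶠ q' in nhds q, η / 2 < q'.1 + Cm R c m q'.2 / 2 :=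
    continuousAt_const.eventually_lt h1.continuousAt (by linarith)
  filter_upwards [h2] with q' hq'
  exact ht.one _ hq'.le

theorem gL_deriv (R c m : ℝ) (u : Fin 2 → ℝ) (b : Fin 2) :
    fderiv ℝ (fun u => -(Cm R c m u / 2) + -(1 / 2) * Lam c m u) u (Pi.single b 1) =
      ((![2, 3] b : ℤ) : ℝ) := by
  have h1 : (fun u => -(Cm R c m u / 2) + -(1 / 2) * Lam c m u) =
      fun u => -(1 / 2 : ℝ) * Pm R c u := by
    funext u
    unfold Cm
    ring
  rw [h1, ((Pm_hasFDerivAt R c u).const_mul (-(1 / 2 : ℝ))).fderiv]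
  fin_cases b <;> simp <;> norm_num

theorem gR_deriv (R c m : ℝ) (u : Fin 2 → ℝ) (b : Fin 2) :
    fderiv ℝ (fun u => Cm R c m u / 2 + 1 / 2 * Lam c m u) u (Pi.single b 1) =
      ((![-2, -3] b : ℤ) : ℝ) := by
  have h1 : (fun u => Cm R c m u / 2 + 1 / 2 * Lam c m u) =
      fun u => (1 / 2 : ℝ) * Pm R c u := by
    funext u
    unfold Cm
    ring
  rw [h1, ((Pm_hasFDerivAt R c u).const_mul (1 / 2 : ℝ)).fderiv]
  fin_cases b <;> simp <;> norm_num

/-- the left change of time away from the seam -/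
theorem clift_FL_eq {t : ℝ → ℝ} (ht : StepQ η t) {w : Fin 3 → ℂ}
    (hw : (w 0).re < Cm R c m (uu w) / 2 - η / 2) :
    clift (FL t R c m) w = ![w 0 - ((Pm R c (uu w) / 2 : ℝ) : ℂ), ee (-((w 0).im * 2)) * w 1,
      ee (-((w 0).im * 3)) * w 2] := by
  rw [FL_eq, FX_shear (k := -(1 / 2)) (hC2 R c m).neg (Lam_contDiff c m) (FL_near ht hw)]
  have e0 : w 0 + ((-(Cm R c m (uu w) / 2) + -(1 / 2) * Lam c m (uu w) : ℝ) : ℂ) =
      w 0 - ((Pm R c (uu w) / 2 : ℝ) : ℂ) := by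
    unfold Cm
    push_cast
    ring
  funext j
  fin_cases j
  · show w 0 + ((-(Cm R c m (uu w) / 2) + -(1 / 2) * Lam c m (uu w) : ℝ) : ℂ) = _
    rw [e0]
    rfl
  · show ee (-((w 0).im * fderiv ℝ (fun u => -(Cm R c m u / 2) + -(1 / 2) * Lam c m u) (uu w)
      (Pi.single (0 : Fin 2) 1))) * w 1 = ee (-((w 0).im * 2)) * w 1
    rw [gL_deriv]
    simp
  · show ee (-((w 0).im * fderiv ℝ (fun u => -(Cm R c m u / 2) + -(1 / 2) * Lam c m u) (uu w)
      (Pi.single (1 : Fin 2) 1))) * w 2 = ee (-((w 0).im * 3)) * w 2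
    rw [gL_deriv]
    simp

/-- the right change of time away from the seam -/
theorem clift_FR_eq {t : ℝ → ℝ} (ht : StepQ η t) {w : Fin 3 → ℂ}
    (hw : -(Cm R c m (uu w) / 2) + η / 2 < (w 0).re) :
    clift (FR t R c m) w = ![w 0 + ((Pm R c (uu w) / 2 : ℝ) : ℂ), ee ((w 0).im * 2) * w 1,
      ee ((w 0).im * 3) * w 2] := by
  rw [FR_eq, FX_shear (k := 1 / 2) (hC2 R c m) (Lam_contDiff c m) (FR_near ht hw)]
  have e0 : w 0 + ((Cm R c m (uu w) / 2 + 1 / 2 * Lam c m (uu w) : ℝ) : ℂ) =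
      w 0 + ((Pm R c (uu w) / 2 : ℝ) : ℂ) := by
    unfold Cm
    push_cast
    ring
  funext j
  fin_cases j
  · show w 0 + ((Cm R c m (uu w) / 2 + 1 / 2 * Lam c m (uu w) : ℝ) : ℂ) = _
    rw [e0]
    rfl
  · show ee (-((w 0).im * fderiv ℝ (fun u => Cm R c m u / 2 + 1 / 2 * Lam c m u) (uu w)
      (Pi.single (0 : Fin 2) 1))) * w 1 = ee ((w 0).im * 2) * w 1
    rw [gR_deriv]
    simp
  · show ee (-((w 0).im * fderiv ℝ (fun u => Cm R c m u / 2 + 1 / 2 * Lam c m u) (uu w)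
      (Pi.single (1 : Fin 2) 1))) * w 2 = ee ((w 0).im * 3) * w 2
    rw [gR_deriv]
    simp

theorem seamTQ {t : ℝ → ℝ} (ht : StepQ η t) (hm : 0 < m) {w : Fin 3 → ℂ}
    (hw : uu w ∈ Vm R c m) :
    clift (FR t R c m) (red (Tk (Cm R c m) 1 w)) = clift (FL t R c m) (red w) := by
  have h1 : red (Tk (Cm R c m) 1 w) = Tk (Cm R c m) 1 (sft (-⌊(w 0).im⌋) w) := by
    unfold red
    rw [Tk_im, Tk_sft]
  rw [h1, Tk_eq_clift (Cm_contDiff R c m)]
  set w' := sft (-⌊(w 0).im⌋) w with hw'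
  have hu : uu w' = uu w := uu_sft _ _
  have hd : ContDiff ℝ ∞ (fun q : ℝ × (Fin 2 → ℝ) => q.1 + (-Cm R c m q.2)) :=
    contDiff_fst.add ((Cm_contDiff R c m).comp contDiff_snd).neg
  have hFp : Fp (fun q : ℝ × (Fin 2 → ℝ) => q.1 + (-Cm R c m q.2)) (qq w') = 1 := by
    have h2 : (fun q : ℝ × (Fin 2 → ℝ) => q.1 + (-Cm R c m q.2)) =
        FX (fun _ => (0 : ℝ)) (fun u => -Cm R c m u) (fun _ => 0) := by
      funext q
      unfold FX
      ring
    rw [h2, FX_Fp contDiff_const (Cm_contDiff R c m).neg contDiff_const]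
    simp
  rw [clift_comp (hd.differentiable (by simp) _)
    ((FR_contDiff ht.smooth R c m).differentiable (by simp) _) (by rw [hFp]; norm_num)
    (by
      have h3 := FR_Fp_ge (R := R) (c := c) ht hm (q := ((qq w').1 + (-Cm R c m (qq w').2), uu w'))
        (by show uu w' ∈ Vm R c m; rw [hu]; exact hw)
      exact (by linarith : (0 : ℝ) < _).ne')]
  have h4 : (fun q : ℝ × (Fin 2 → ℝ) => FR t R c m (q.1 + (-Cm R c m q.2), q.2)) =
      FL t R c m := by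
    funext q
    have e1 : q.1 + (-Cm R c m q.2) + Cm R c m q.2 / 2 = q.1 - Cm R c m q.2 / 2 := by ring
    unfold FR FL
    show (q.1 + (-Cm R c m q.2) + Cm R c m q.2 / 2) +
      t (q.1 + (-Cm R c m q.2) + Cm R c m q.2 / 2) * Lam c m q.2 = _
    rw [e1]
  rw [h4]
  rfl

/-- **The row `RowTQ`.** -/
theorem rowTQ : H687.RowTQ := by
  intro R c m η D hH
  obtain ⟨hm, -, -, -, -⟩ := hH
  refine ⟨fun q hq => ⟨FL_Fp_ge D.ht hm hq, FR_Fp_ge D.ht hm hq⟩, ?_, ?_, ?_⟩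
  · intro w _ h l
    rw [FL_eq]
    exact FX_period (k := -(1 / 2)) (hC2 R c m).neg (Lam_contDiff c m) (FL_near D.ht h)
      ![2, 3] (fun b => gL_deriv R c m _ b) l
  · intro w _ h l
    rw [FR_eq]
    exact FX_period (k := 1 / 2) (hC2 R c m) (Lam_contDiff c m) (FR_near D.ht h)
      ![-2, -3] (fun b => gR_deriv R c m _ b) l
  · intro w hw _
    exact seamTQ D.ht hm hw

end Vale.Agent.P209.H721
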