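import Mathlib

/-!
# P209, package DCONT: continuity of the width of the superlevel intervals on lines
-/

namespace Vale.Agent.P209.H721

open scoped Topology ContDiff
open Set Function MeasureTheory Filter

variable {d : ℕ}

/-- componentwise absolute value -/
def ab (x : Fin d → ℝ) : Fin d → ℝ := fun b => |x b|

theorem ab_apply (x : Fin d → ℝ) (b : Fin d) : ab x b = |x b| := rfl

theorem continuous_ab : Continuous (ab : (Fin d → ℝ) → (Fin d → ℝ)) :=
  continuous_pi fun b => (continuous_apply b).abs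

theorem ab_of_nonneg {x : Fin d → ℝ} (h : ∀ b, 0 ≤ x b) : ab x = x :=
  funext fun b => abs_of_nonneg (h b)

theorem ab_update (x : Fin d → ℝ) (a : Fin d) {y : ℝ} (hy : 0 ≤ y) :
    ab (update x a y) = update (ab x) a y := by
  funext b
  by_cases h : b = a
  · subst h
    rw [ab_apply, update_self, update_self, abs_of_nonneg hy]
  · rw [ab_apply, update_of_ne h, update_of_ne h, ab_apply]

/-- bounded convex down-sets, relatively open in the orthant -/
structure RelDom (Om : Set (Fin d → ℝ)) (B : ℝ) : Prop where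
  convex : Convex ℝ Om
  nonneg : ∀ u ∈ Om, ∀ b, 0 ≤ u b
  le : ∀ u ∈ Om, ∀ b, u b ≤ B
  down : ∀ u ∈ Om, ∀ v : Fin d → ℝ, (∀ b, 0 ≤ v b) → (∀ b, v b ≤ u b) → v ∈ Om
  isOpen : IsOpen {x : Fin d → ℝ | ab x ∈ Om}

/-- strict quasi-concavity on the lines in direction `a` -/
def StrictLines (Om : Set (Fin d → ℝ)) (a : Fin d) (f : (Fin d → ℝ) → ℝ) : Prop :=
  ∀ (u : Fin d → ℝ) (x y z : ℝ), x < z → z < y → update u a x ∈ Om → update u a y ∈ Om →
    min (f (update u a x)) (f (update u a y)) < f (update u a z)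

/-- the superlevel set on the line in direction `a` -/
def sup_ (Om : Set (Fin d → ℝ)) (a : Fin d) (f : (Fin d → ℝ) → ℝ) (p : ℝ)
    (u : Fin d → ℝ) : Set ℝ :=
  {x : ℝ | update u a x ∈ Om ∧ p < f (update u a x)}

/-- the length of the superlevel interval on the line in direction `a` -/
noncomputable def wid (Om : Set (Fin d → ℝ)) (a : Fin d) (f : (Fin d → ℝ) → ℝ) (p : ℝ)
    (u : Fin d → ℝ) : ℝ := (volume (sup_ Om a f p u)).toReal

theorem wid_update (Om : Set (Fin d → ℝ)) (a : Fin d) (f : (Fin d → ℝ) → ℝ) (p : ℝ)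
    (u : Fin d → ℝ) (x : ℝ) : wid Om a f p (update u a x) = wid Om a f p u := by
  simp [wid, sup_, update_idem]

theorem wid_nonneg (Om : Set (Fin d → ℝ)) (a : Fin d) (f : (Fin d → ℝ) → ℝ) (p : ℝ)
    (u : Fin d → ℝ) : 0 ≤ wid Om a f p u := ENNReal.toReal_nonneg

namespace RelDom

variable {Om : Set (Fin d → ℝ)} {B : ℝ} {a : Fin d} {f : (Fin d → ℝ) → ℝ}

theorem line_nonneg (h : RelDom Om B) {u : Fin d → ℝ} {x : ℝ} (hx : update u a x ∈ Om) :
    0 ≤ x := by
  have := h.nonneg _ hx a
  rwa [update_self] at this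

theorem line_le (h : RelDom Om B) {u : Fin d → ℝ} {x : ℝ} (hx : update u a x ∈ Om) :
    x ≤ B := by
  have := h.le _ hx a
  rwa [update_self] at this

theorem line_down (h : RelDom Om B) {u : Fin d → ℝ} {x y : ℝ} (hx : update u a x ∈ Om)
    (hy : 0 ≤ y) (hyx : y ≤ x) : update u a y ∈ Om := by
  refine h.down _ hx _ (fun b => ?_) (fun b => ?_)
  · by_cases hb : b = a
    · subst hb
      rwa [update_self]
    · have := h.nonneg _ hx b
      rwa [update_of_ne hb] at this ⊢
  · by_cases hb : b = a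
    · subst hb
      rwa [update_self, update_self]
    · rw [update_of_ne hb, update_of_ne hb]

theorem sup_subset (h : RelDom Om B) (p : ℝ) (u : Fin d → ℝ) :
    sup_ Om a f p u ⊆ Icc 0 B := fun _ hx => ⟨h.line_nonneg hx.1, h.line_le hx.1⟩

theorem ordConnected_sup (h : RelDom Om B) (hs : StrictLines Om a f) (p : ℝ)
    (u : Fin d → ℝ) : (sup_ Om a f p u).OrdConnected := by
  constructor
  intro x hx y hy z hz
  rcases eq_or_lt_of_le hz.1 with h1 | h1
  · exact h1 ▸ hx
  rcases eq_or_lt_of_le hz.2 with h2 | h2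
  · exact h2 ▸ hy
  exact ⟨h.line_down hy.1 ((h.line_nonneg hx.1).trans hz.1) hz.2,
    lt_trans (lt_min hx.2 hy.2) (hs u x y z h1 h2 hx.1 hy.1)⟩

theorem measurableSet_sup (h : RelDom Om B) (hs : StrictLines Om a f) (p : ℝ)
    (u : Fin d → ℝ) : MeasurableSet (sup_ Om a f p u) :=
  (h.ordConnected_sup hs p u).measurableSet

theorem volume_sup_ne_top (h : RelDom Om B) (p : ℝ) (u : Fin d → ℝ) :
    volume (sup_ Om a f p u) ≠ ⊤ :=
  ne_top_of_le_ne_top (by simp) (measure_mono (h.sup_subset p u))

/-- level sets on lines are finite -/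
theorem finite_level (hs : StrictLines Om a f) (p : ℝ) (u : Fin d → ℝ) :
    {x : ℝ | update u a x ∈ Om ∧ f (update u a x) = p}.Finite := by
  by_contra hinf
  obtain ⟨t, ht, htc⟩ := (show Set.Infinite _ from hinf).exists_subset_card_eq 3
  let e := t.orderEmbOfFin htc
  have h0 := ht (t.orderEmbOfFin_mem htc 0)
  have h1 := ht (t.orderEmbOfFin_mem htc 1)
  have h2 := ht (t.orderEmbOfFin_mem htc 2)
  have h01 : e 0 < e 1 := e.strictMono (by decide)
  have h12 : e 1 < e 2 := e.strictMono (by decide)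
  have h3 := hs u _ _ _ h01 h12 h0.1 h2.1
  rw [h0.2, h2.2, h1.2, min_self] at h3
  exact lt_irrefl _ h3

theorem continuousAt_comp (h : RelDom Om B) (hf : ContinuousOn f Om) {v : Fin d → ℝ}
    (hv : ab v ∈ Om) : ContinuousAt (fun v => f (ab v)) v := by
  have h1 : ContinuousOn (fun v => f (ab v)) {x : Fin d → ℝ | ab x ∈ Om} :=
    hf.comp continuous_ab.continuousOn (fun x hx => hx)
  exact h1.continuousAt (h.isOpen.mem_nhds hv)

theorem continuous_update (a : Fin d) (x : ℝ) :
    Continuous fun v : Fin d → ℝ => update v a x :=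
  continuous_id.update a continuous_const

/-- points beyond the end of the line stay outside -/
theorem eventually_notMem (h : RelDom Om B) {v₀ : Fin d → ℝ}
    (hv₀ : update (ab v₀) a 0 ∈ Om) {x₁ x : ℝ} (hx₁ : 0 ≤ x₁) (hx : x₁ < x)
    (hn : update (ab v₀) a x₁ ∉ Om) : ∀ᶠ v in 𝓝 v₀, update (ab v) a x ∉ Om := by
  have hx0 : 0 < x := lt_of_le_of_lt hx₁ hx
  set t : ℝ := x₁ / x with ht
  have ht0 : 0 ≤ t := div_nonneg hx₁ hx0.le
  have ht1 : t < 1 := (div_lt_one hx0).2 hx
  have htx : t * x = x₁ := div_mul_cancel₀ _ hx0.ne'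
  -- the auxiliary point
  let w : (Fin d → ℝ) → (Fin d → ℝ) := fun v b => min |v b| |v₀ b|
  let y : (Fin d → ℝ) → (Fin d → ℝ) := fun v b =>
    |v₀ b| + t / (1 - t) * (|v₀ b| - w v b)
  have hwc : Continuous w := continuous_pi fun b => ((continuous_apply b).abs).min continuous_const
  have hyc : Continuous y := continuous_pi fun b =>
    continuous_const.add (continuous_const.mul
      (continuous_const.sub ((continuous_apply b).comp hwc)))
  have hwle : ∀ v b, w v b ≤ |v₀ b| := fun v b => min_le_right _ _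
  have hynn : ∀ v b, 0 ≤ y v b := fun v b =>
    add_nonneg (abs_nonneg _) (mul_nonneg (div_nonneg ht0 (by linarith))
      (sub_nonneg.2 (hwle v b)))
  have hy₀ : y v₀ = ab v₀ := by
    funext b
    simp [y, w, ab_apply]
  have hopen : ∀ᶠ v in 𝓝 v₀, update (y v) a 0 ∈ Om := by
    have h1 : Continuous fun v => update (y v) a 0 := hyc.update a continuous_const
    have h2 : ∀ᶠ v in 𝓝 v₀, ab (update (y v) a 0) ∈ Om := by
      refine h1.continuousAt.eventually (h.isOpen.mem_nhds ?_)
      change ab (update (y v₀) a 0) ∈ Om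
      rw [hy₀, ab_of_nonneg (h.nonneg _ hv₀)]
      exact hv₀
    filter_upwards [h2] with v hv
    rwa [ab_of_nonneg] at hv
    intro b
    by_cases hb : b = a
    · subst hb
      rw [update_self]
    · rw [update_of_ne hb]
      exact hynn v b
  filter_upwards [hopen] with v hv hmem
  apply hn
  have hw : update (w v) a x ∈ Om := by
    refine h.down _ hmem _ (fun b => ?_) (fun b => ?_)
    · by_cases hb : b = a
      · subst hb
        rw [update_self]
        exact hx0.le
      · rw [update_of_ne hb]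
        exact le_min (abs_nonneg _) (abs_nonneg _)
    · by_cases hb : b = a
      · subst hb
        rw [update_self, update_self]
      · rw [update_of_ne hb, update_of_ne hb]
        exact min_le_left _ _
  have hc := h.convex hw hv ht0 (by linarith : (0 : ℝ) ≤ 1 - t) (by ring)
  convert hc using 1
  funext b
  by_cases hb : b = a
  · subst hb
    simp [update_self, htx]
  · simp only [Pi.add_apply, Pi.smul_apply, update_of_ne hb, smul_eq_mul, ab_apply]
    have h1t : (1 : ℝ) - t ≠ 0 := by linarith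
    simp only [y]
    field_simp
    ring

/-- **Continuity of the width.** -/
theorem continuousOn_wid (h : RelDom Om B) (hf : ContinuousOn f Om)
    (hs : StrictLines Om a f) :
    ContinuousOn (fun q : ℝ × (Fin d → ℝ) => wid Om a f q.1 (ab q.2))
      {q | update (ab q.2) a 0 ∈ Om} := by
  intro q₀ hq₀
  refine ContinuousAt.continuousWithinAt ?_
  have hq₀' : update (ab q₀.2) a 0 ∈ Om := hq₀
  set ℓ : ℝ := sSup {x : ℝ | update (ab q₀.2) a x ∈ Om} with hℓ
  have hbdd : BddAbove {x : ℝ | update (ab q₀.2) a x ∈ Om} := ⟨B, fun x hx => h.line_le hx⟩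
  have hℓ0 : 0 ≤ ℓ := le_csSup hbdd hq₀'
  have hfin := (finite_level (p := q₀.1) (u := ab q₀.2) hs).insert ℓ
  have key : ∀ x : ℝ, x ∉ insert ℓ {x : ℝ | update (ab q₀.2) a x ∈ Om ∧
      f (update (ab q₀.2) a x) = q₀.1} → ∀ᶠ q in 𝓝 q₀,
        (x ∈ sup_ Om a f q.1 (ab q.2) ↔ x ∈ sup_ Om a f q₀.1 (ab q₀.2)) := by
    intro x hx
    rw [mem_insert_iff, not_or] at hx
    obtain ⟨hxℓ, hxL⟩ := hx
    by_cases hx0 : x < 0
    · refine Eventually.of_forall fun q => ?_
      constructor
      · intro h1
        exact absurd (h.line_nonneg h1.1) (not_le.2 hx0)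
      · intro h1
        exact absurd (h.line_nonneg h1.1) (not_le.2 hx0)
    rw [not_lt] at hx0
    by_cases hmem : update (ab q₀.2) a x ∈ Om
    · have hne : f (update (ab q₀.2) a x) ≠ q₀.1 := fun h1 => hxL ⟨hmem, h1⟩
      have hmem' : ab (update q₀.2 a x) ∈ Om := by rwa [ab_update _ _ hx0]
      have hcu : ContinuousAt (fun q : ℝ × (Fin d → ℝ) => update q.2 a x) q₀ :=
        ((continuous_update a x).comp continuous_snd).continuousAt
      have e1 : ∀ᶠ q in 𝓝 q₀, update (ab q.2) a x ∈ Om := by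
        have := hcu.eventually (h.isOpen.mem_nhds hmem')
        filter_upwards [this] with q hq
        rwa [ab_update _ _ hx0] at hq
      have hcf : ContinuousAt (fun q : ℝ × (Fin d → ℝ) => f (update (ab q.2) a x)) q₀ := by
        have h1 := ContinuousAt.comp (f := fun q : ℝ × (Fin d → ℝ) => update q.2 a x)
          (g := fun v => f (ab v)) (x := q₀) (h.continuousAt_comp hf hmem') hcu
        refine h1.congr (Eventually.of_forall fun q => ?_)
        simp only [comp_apply]
        rw [ab_update _ _ hx0]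
      have hc1 : ContinuousAt (fun q : ℝ × (Fin d → ℝ) => q.1) q₀ := continuousAt_fst
      rcases lt_or_gt_of_ne hne with hlt | hgt
      · filter_upwards [hcf.eventually_lt hc1 hlt] with q hq
        constructor
        · intro h1
          exact absurd h1.2 (not_lt.2 hq.le)
        · intro h1
          exact absurd h1.2 (not_lt.2 hlt.le)
      · filter_upwards [hc1.eventually_lt hcf hgt, e1] with q hq hq'
        exact ⟨fun _ => ⟨hmem, hgt⟩, fun _ => ⟨hq', hq⟩⟩
    · have hle : ℓ ≤ x := by
        refine csSup_le ⟨0, hq₀'⟩ fun y hy => ?_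
        by_contra hlt
        rw [not_le] at hlt
        exact hmem (h.line_down hy hx0 hlt.le)
      have hlt : ℓ < x := lt_of_le_of_ne hle (fun h1 => hxℓ h1.symm)
      have hx₁ : update (ab q₀.2) a ((ℓ + x) / 2) ∉ Om := by
        intro h1
        have := le_csSup hbdd h1
        rw [← hℓ] at this
        linarith
      have h2 := h.eventually_notMem hq₀' (x₁ := (ℓ + x) / 2) (x := x) (by linarith)
        (by linarith) hx₁
      have h3 : ∀ᶠ q in 𝓝 q₀, update (ab q.2) a x ∉ Om :=
        (continuousAt_snd (p := q₀)).eventually h2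
      filter_upwards [h3] with q hq
      exact ⟨fun h1 => absurd h1.1 hq, fun h1 => absurd h1.1 hmem⟩
  have hlim : Tendsto (fun q : ℝ × (Fin d → ℝ) => volume (sup_ Om a f q.1 (ab q.2))) (𝓝 q₀)
      (𝓝 (volume (sup_ Om a f q₀.1 (ab q₀.2)))) := by
    refine tendsto_measure_of_ae_tendsto_indicator (𝓝 q₀)
      (h.measurableSet_sup hs _ _) (fun q => h.measurableSet_sup hs _ _)
      (B := Icc 0 B) measurableSet_Icc (by simp)
      (Eventually.of_forall fun q => h.sup_subset _ _) ?_
    have h1 : ∀ᵐ x : ℝ, x ∉ insert ℓ {x : ℝ | update (ab q₀.2) a x ∈ Om ∧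
        f (update (ab q₀.2) a x) = q₀.1} := by
      rw [ae_iff]
      simp only [not_not]
      exact hfin.measure_zero _
    filter_upwards [h1] with x hx
    exact key x hx
  exact (ENNReal.tendsto_toReal (h.volume_sup_ne_top _ _)).comp hlim

end RelDom

end Vale.Agent.P209.H721
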