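import Vale.Agent.P209.H578.Defs
import Vale.Agent.P209.H753.Smooth
import Vale.Agent.P209.H721.Width

/-!
# P209, package DCONT: the smooth length function (`H578.DContLemma`)
-/

namespace Vale.Agent.P209.H721

open scoped Topology ContDiff
open Set Function MeasureTheory Filter

variable {d : ℕ}

theorem relDom_of_dom {Om : Set (Fin d → ℝ)} (h : H578.Dom Om) : ∃ B, RelDom Om B := by
  obtain ⟨B, hB⟩ := h.bdd
  refine ⟨B, h.convex, h.nonneg, hB, h.down, ?_⟩
  obtain ⟨O, hO, hOm⟩ := h.relopen
  have h1 : {x : Fin d → ℝ | ab x ∈ Om} = ab ⁻¹' O := by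
    ext x
    simp only [mem_ofPred_eq, mem_preimage]
    constructor
    · intro h1
      rw [hOm] at h1
      exact h1.1
    · intro h1
      rw [hOm]
      exact ⟨h1, fun a => abs_nonneg _⟩
  rw [h1]
  exact hO.preimage continuous_ab

/-- the clamp -/
noncomputable def clp (δ t : ℝ) : ℝ := max (min (t / δ) 1) 0

theorem clp_nonneg (δ t : ℝ) : 0 ≤ clp δ t := le_max_right _ _

theorem clp_le_one (δ t : ℝ) : clp δ t ≤ 1 := max_le (min_le_right _ _) zero_le_one

theorem clp_eq_one {δ t : ℝ} (hδ : 0 < δ) (h : δ ≤ t) : clp δ t = 1 := by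
  unfold clp
  rw [min_eq_right ((one_le_div hδ).2 h)]
  exact max_eq_left zero_le_one

theorem clp_eq_zero {δ t : ℝ} (hδ : 0 < δ) (h : t ≤ 0) : clp δ t = 0 := by
  unfold clp
  refine max_eq_right ((min_le_left _ _).trans ?_)
  exact div_nonpos_of_nonpos_of_nonneg h hδ.le

theorem continuous_clp (δ : ℝ) : Continuous (clp δ) :=
  ((continuous_id.div_const δ).min continuous_const).max continuous_const

/-- the line through `u` in direction `a` inside `Om` -/
def ln (Om : Set (Fin d → ℝ)) (a : Fin d) (u : Fin d → ℝ) : Set ℝ :=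
  {y : ℝ | update u a y ∈ Om}

/-- the integrand -/
noncomputable def ig (Om : Set (Fin d → ℝ)) (a : Fin d) (f : (Fin d → ℝ) → ℝ) (δ p : ℝ)
    (u : Fin d → ℝ) : ℝ → ℝ :=
  (ln Om a u).indicator (fun y => clp δ (f (update u a y) - p))

/-- the clamp integral -/
noncomputable def D1 (Om : Set (Fin d → ℝ)) (a : Fin d) (f : (Fin d → ℝ) → ℝ) (δ p : ℝ)
    (u : Fin d → ℝ) : ℝ := ∫ y, ig Om a f δ p u y

theorem D1_update (Om : Set (Fin d → ℝ)) (a : Fin d) (f : (Fin d → ℝ) → ℝ) (δ p : ℝ)
    (u : Fin d → ℝ) (x : ℝ) : D1 Om a f δ p (update u a x) = D1 Om a f δ p u := by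
  simp [D1, ig, ln, update_idem]

namespace RelDom

variable {Om : Set (Fin d → ℝ)} {B : ℝ} {a : Fin d} {f : (Fin d → ℝ) → ℝ}

theorem ordConnected_ln (h : RelDom Om B) (u : Fin d → ℝ) : (ln Om a u).OrdConnected := by
  constructor
  intro x hx y hy z hz
  exact h.line_down hy ((h.line_nonneg hx).trans hz.1) hz.2

theorem ig_nonneg (δ p : ℝ) (u : Fin d → ℝ) (y : ℝ) : 0 ≤ ig Om a f δ p u y :=
  indicator_nonneg (fun _ _ => clp_nonneg _ _) y

theorem ig_le (h : RelDom Om B) (δ p : ℝ) (u : Fin d → ℝ) (y : ℝ) :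
    ig Om a f δ p u y ≤ (Icc 0 B).indicator (fun _ => (1 : ℝ)) y := by
  unfold ig
  by_cases hy : y ∈ ln Om a u
  · rw [indicator_of_mem hy, indicator_of_mem]
    · exact clp_le_one _ _
    · exact ⟨h.line_nonneg hy, h.line_le hy⟩
  · rw [indicator_of_notMem hy]
    exact indicator_nonneg (fun _ _ => zero_le_one) y

theorem aesm_ig (h : RelDom Om B) (hf : ContinuousOn f Om) (δ p : ℝ) (u : Fin d → ℝ) :
    AEStronglyMeasurable (ig Om a f δ p u) volume := by
  have hm : MeasurableSet (ln Om a u) := (h.ordConnected_ln u).measurableSet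
  unfold ig
  rw [aestronglyMeasurable_indicator_iff hm]
  refine ContinuousOn.aestronglyMeasurable ?_ hm
  refine (continuous_clp δ).comp_continuousOn ?_
  refine ContinuousOn.sub ?_ continuousOn_const
  refine hf.comp (Continuous.continuousOn ?_) (fun y hy => hy)
  exact continuous_const.update a continuous_id

theorem integrable_bound (B : ℝ) :
    Integrable ((Icc 0 B).indicator (fun _ => (1 : ℝ))) volume := by
  rw [integrable_indicator_iff measurableSet_Icc]
  exact integrableOn_const (by simp)

theorem integrable_ig (h : RelDom Om B) (hf : ContinuousOn f Om) (δ p : ℝ) (u : Fin d → ℝ) :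
    Integrable (ig Om a f δ p u) volume := by
  refine (integrable_bound B).mono' (h.aesm_ig hf δ p u) ?_
  refine Eventually.of_forall fun y => ?_
  rw [Real.norm_eq_abs, abs_of_nonneg (ig_nonneg δ p u y)]
  exact h.ig_le δ p u y

/-- **Continuity of the clamp integral.** -/
theorem continuousOn_D1 (h : RelDom Om B) (hf : ContinuousOn f Om) (δ : ℝ) :
    ContinuousOn (fun q : ℝ × (Fin d → ℝ) => D1 Om a f δ q.1 (ab q.2))
      {q | ab (update q.2 a 0) ∈ Om} := by
  intro q₀ hq₀
  refine ContinuousAt.continuousWithinAt ?_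
  have hq₀' : update (ab q₀.2) a 0 ∈ Om := by
    have h1 : ab (update q₀.2 a 0) ∈ Om := hq₀
    rwa [ab_update _ _ le_rfl] at h1
  set ℓ : ℝ := sSup {x : ℝ | update (ab q₀.2) a x ∈ Om} with hℓ
  have hbdd : BddAbove {x : ℝ | update (ab q₀.2) a x ∈ Om} := ⟨B, fun x hx => h.line_le hx⟩
  have hℓ0 : 0 ≤ ℓ := le_csSup hbdd hq₀'
  have key : ∀ x : ℝ, x ≠ ℓ → ContinuousAt
      (fun q : ℝ × (Fin d → ℝ) => ig Om a f δ q.1 (ab q.2) x) q₀ := by
    intro x hxℓ
    by_cases hx0 : x < 0
    · have h1 : ∀ q : ℝ × (Fin d → ℝ), ig Om a f δ q.1 (ab q.2) x = 0 := by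
        intro q
        refine indicator_of_notMem ?_ _
        intro h1
        exact absurd (h.line_nonneg h1) (not_le.2 hx0)
      simp only [h1]
      exact continuousAt_const
    rw [not_lt] at hx0
    by_cases hmem : update (ab q₀.2) a x ∈ Om
    · have hmem' : ab (update q₀.2 a x) ∈ Om := by rwa [ab_update _ _ hx0]
      have hcu : ContinuousAt (fun q : ℝ × (Fin d → ℝ) => update q.2 a x) q₀ :=
        ((continuous_update a x).comp continuous_snd).continuousAt
      have e1 : ∀ᶠ q in 𝓝 q₀, update (ab q.2) a x ∈ Om := by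
        have := hcu.eventually (h.isOpen.mem_nhds hmem')
        filter_upwards [this] with q hq
        rwa [ab_update _ _ hx0] at hq
      have hcf : ContinuousAt (fun q : ℝ × (Fin d → ℝ) => f (update (ab q.2) a x)) q₀ := by
        have h1 := ContinuousAt.comp (f := fun q : ℝ × (Fin d → ℝ) => update q.2 a x)
          (g := fun v => f (ab v)) (x := q₀) (h.continuousAt_comp hf hmem') hcu
        refine h1.congr (Eventually.of_forall fun q => ?_)
        simp only [comp_apply]
        rw [ab_update _ _ hx0]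
      have hc1 : ContinuousAt (fun q : ℝ × (Fin d → ℝ) =>
          clp δ (f (update (ab q.2) a x) - q.1)) q₀ :=
        (continuous_clp δ).continuousAt.comp (hcf.sub continuousAt_fst)
      refine hc1.congr ?_
      filter_upwards [e1] with q hq
      have hq' : x ∈ ln Om a (ab q.2) := hq
      change _ = ig Om a f δ q.1 (ab q.2) x
      unfold ig
      rw [indicator_of_mem hq']
    · have hle : ℓ ≤ x := by
        refine csSup_le ⟨0, hq₀'⟩ fun y hy => ?_
        by_contra hlt
        rw [not_le] at hlt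
        exact hmem (h.line_down hy hx0 hlt.le)
      have hlt : ℓ < x := lt_of_le_of_ne hle (fun h1 => hxℓ h1.symm)
      have hx₁ : update (ab q₀.2) a ((ℓ + x) / 2) ∉ Om := by
        intro h1
        have := le_csSup hbdd h1
        rw [← hℓ] at this
        linarith
      have h2 := h.eventually_notMem hq₀' (x₁ := (ℓ + x) / 2) (x := x) (by linarith)
        (by linarith) hx₁
      have h3 : ∀ᶠ q in 𝓝 q₀, update (ab q.2) a x ∉ Om :=
        (continuousAt_snd (p := q₀)).eventually h2
      refine (continuousAt_const (y := (0 : ℝ))).congr ?_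
      filter_upwards [h3] with q hq
      have hq' : x ∉ ln Om a (ab q.2) := hq
      change _ = ig Om a f δ q.1 (ab q.2) x
      unfold ig
      rw [indicator_of_notMem hq']
  refine continuousAt_of_dominated
    (F := fun (q : ℝ × (Fin d → ℝ)) (y : ℝ) => ig Om a f δ q.1 (ab q.2) y) (x₀ := q₀)
    (bound := (Icc (0 : ℝ) B).indicator (fun _ => (1 : ℝ)))
    (Eventually.of_forall fun q => h.aesm_ig hf δ _ _) (Eventually.of_forall fun q =>
      Eventually.of_forall fun y => ?_) (integrable_bound B) ?_
  · rw [Real.norm_eq_abs, abs_of_nonneg (ig_nonneg δ _ _ y)]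
    exact h.ig_le δ _ _ y
  · have h1 : ∀ᵐ x : ℝ, x ≠ ℓ := by
      rw [ae_iff]
      simp
    filter_upwards [h1] with x hx
    exact key x hx

/-- upper bound for the clamp integral -/
theorem D1_le (h : RelDom Om B) (hf : ContinuousOn f Om) {δ p : ℝ} (hδ : 0 < δ)
    {u : Fin d → ℝ} {α β : ℝ} (hαβ : α ≤ β)
    (hs : ∀ y, update u a y ∈ Om → p < f (update u a y) → y ∈ Icc α β) :
    D1 Om a f δ p u ≤ β - α := by
  have hint : Integrable ((Icc α β).indicator (fun _ => (1 : ℝ))) volume := by
    rw [integrable_indicator_iff measurableSet_Icc]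
    exact integrableOn_const (by simp)
  have h1 : D1 Om a f δ p u ≤ ∫ y, (Icc α β).indicator (fun _ => (1 : ℝ)) y := by
    refine integral_mono (h.integrable_ig hf δ p u) hint fun y => ?_
    by_cases hy : y ∈ ln Om a u
    · by_cases hp : p < f (update u a y)
      · have h2 := hs y hy hp
        rw [indicator_of_mem h2]
        unfold ig
        rw [indicator_of_mem hy]
        exact clp_le_one _ _
      · have h3 : ig Om a f δ p u y = 0 := by
          unfold ig
          rw [indicator_of_mem hy]
          exact clp_eq_zero hδ (by linarith)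
        rw [h3]
        exact indicator_nonneg (fun _ _ => zero_le_one) y
    · have h3 : ig Om a f δ p u y = 0 := indicator_of_notMem hy _
      rw [h3]
      exact indicator_nonneg (fun _ _ => zero_le_one) y
  refine h1.trans ?_
  rw [integral_indicator measurableSet_Icc]
  simp [hαβ]

/-- lower bound for the clamp integral -/
theorem le_D1 (h : RelDom Om B) (hf : ContinuousOn f Om) {δ p : ℝ} (hδ : 0 < δ)
    {u : Fin d → ℝ} {α β : ℝ} (hαβ : α ≤ β)
    (hs : ∀ y ∈ Icc α β, update u a y ∈ Om ∧ p + δ ≤ f (update u a y)) :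
    β - α ≤ D1 Om a f δ p u := by
  have hint : Integrable ((Icc α β).indicator (fun _ => (1 : ℝ))) volume := by
    rw [integrable_indicator_iff measurableSet_Icc]
    exact integrableOn_const (by simp)
  have h1 : ∫ y, (Icc α β).indicator (fun _ => (1 : ℝ)) y ≤ D1 Om a f δ p u := by
    refine integral_mono hint (h.integrable_ig hf δ p u) fun y => ?_
    by_cases hy : y ∈ Icc α β
    · have h2 := hs y hy
      rw [indicator_of_mem hy]
      unfold ig
      rw [indicator_of_mem (show y ∈ ln Om a u from h2.1), clp_eq_one hδ (by linarith [h2.2])]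
    · rw [indicator_of_notMem hy]
      exact ig_nonneg δ p u y
  refine le_trans ?_ h1
  rw [integral_indicator measurableSet_Icc]
  simp [hαβ]

end RelDom

/-- a smooth function on an open set can be made globally smooth, unchanged near a compact set -/
theorem exists_global {E : Type*} [NormedAddCommGroup E] [NormedSpace ℝ E]
    [FiniteDimensional ℝ E] {U K : Set E} (hU : IsOpen U) (hK : IsCompact K) (hKU : K ⊆ U)
    {G : E → ℝ} (hG : ContDiffOn ℝ ∞ G U) :
    ∃ G' : E → ℝ, ContDiff ℝ ∞ G' ∧ ∃ N : Set E, IsOpen N ∧ K ⊆ N ∧ N ⊆ U ∧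
      ∀ x ∈ N, G' x = G x := by
  classical
  have : ProperSpace E := FiniteDimensional.proper_real E
  obtain ⟨L, hL, hKL, hLU⟩ := exists_compact_between hK hU hKU
  obtain ⟨χ, hχ1, hχ0, -⟩ := exists_contMDiffMap_one_nhds_of_subset_interior
    (n := (⊤ : ℕ∞)) (modelWithCornersSelf ℝ E) hK.isClosed hKL
  have hχs : ContDiff ℝ ∞ (fun x => χ x) := χ.contMDiff.contDiff
  have hχ1' : ∀ᶠ x in 𝓝ˢ K, χ x = 1 := hχ1
  obtain ⟨N, hNo, hKN, hN⟩ := (eventually_nhdsSet_iff_exists).1 hχ1'
  refine ⟨fun x => χ x * G x, ?_, N ∩ U, hNo.inter hU, subset_inter hKN hKU,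
    inter_subset_right, fun x hx => ?_⟩
  · rw [contDiff_iff_contDiffAt]
    intro x
    by_cases hx : x ∈ U
    · exact hχs.contDiffAt.mul (hG.contDiffAt (hU.mem_nhds hx))
    · have hxL : x ∉ L := fun h1 => hx (hLU h1)
      have h1 : (fun x => χ x * G x) =ᶠ[𝓝 x] fun _ => (0 : ℝ) := by
        filter_upwards [hL.isClosed.isOpen_compl.mem_nhds hxL] with y hy
        rw [hχ0 y hy, zero_mul]
      exact contDiffAt_const.congr_of_eventuallyEq h1
  · simp [hN x hx.1]

theorem dcont : H578.DContLemma := by
  intro d Om a f hOm hf K hK hKOm ε hε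
  obtain ⟨B, h⟩ := relDom_of_dom hOm
  have hfc := hf.cont
  set δ : ℝ := ε / 2 with hδ
  set ε' : ℝ := ε / 16 with hε'
  have hδ0 : 0 < δ := by positivity
  have hε'0 : 0 < ε' := by positivity
  -- the open set
  have hU : IsOpen {q : ℝ × (Fin d → ℝ) | ab (update q.2 a 0) ∈ Om} := by
    have h1 : Continuous fun q : ℝ × (Fin d → ℝ) => update q.2 a (0 : ℝ) :=
      continuous_snd.update a continuous_const
    exact h.isOpen.preimage h1
  obtain ⟨G, hG, hGb⟩ := H753.exists_smooth_between hU (h.continuousOn_D1 (a := a) hfc δ)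
    (show -3 * ε' < - ε' by linarith)
  -- the projection
  set P : ℝ × (Fin d → ℝ) → ℝ × (Fin d → ℝ) := fun q => (q.1, update q.2 a 0) with hP
  have hPs : ContDiff ℝ ∞ P := by
    refine contDiff_fst.prodMk ?_
    rw [contDiff_pi]
    intro i
    by_cases hi : i = a
    · subst hi
      simpa using contDiff_const
    · simp only [update_of_ne hi]
      exact (contDiff_apply ℝ ℝ i).comp contDiff_snd
  have hKP : IsCompact (P '' K) := hK.image hPs.continuous
  have hKU : P '' K ⊆ {q : ℝ × (Fin d → ℝ) | ab (update q.2 a 0) ∈ Om} := by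
    rintro _ ⟨q, hq, rfl⟩
    have hq2 := hKOm q hq
    simp only [hP, mem_ofPred_eq, update_idem]
    rw [ab_update _ _ le_rfl, ab_of_nonneg (h.nonneg _ hq2)]
    exact h.line_down (u := q.2) (x := q.2 a) (by rwa [update_eq_self]) le_rfl (h.nonneg _ hq2 a)
  obtain ⟨G', hG', N, hNo, hKN, hNU, hN⟩ := exists_global hU hKP hKU hG
  refine ⟨ε', hε'0, fun q => G' (P q), hG'.comp hPs, ?_, P ⁻¹' N, hNo.preimage hPs.continuous,
    fun q hq => hKN ⟨q, hq, rfl⟩, ?_, ?_⟩
  · intro p u y
    simp [hP, update_idem]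
  · intro p u y hy
    simpa [hP, update_idem] using hy
  intro p u hpu hu hfu
  -- the bounds of `D`
  have hu0 : ∀ b, 0 ≤ u b := h.nonneg _ hu
  have hDeq : G' (P (p, u)) = G (P (p, u)) := hN _ hpu
  have hPU : P (p, u) ∈ {q : ℝ × (Fin d → ℝ) | ab (update q.2 a 0) ∈ Om} := hNU hpu
  have hb := hGb _ hPU
  have hD1 : D1 Om a f δ (P (p, u)).1 (ab (P (p, u)).2) = D1 Om a f δ p u := by
    simp only [hP]
    rw [ab_update _ _ le_rfl, ab_of_nonneg hu0, D1_update]
  rw [hD1] at hb
  change (_ → 0 < G' (P (p, u)) → ∃ y, u a + G' (P (p, u)) + ε' < y ∧ _) ∧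
    (_ → ∀ x y, 0 ≤ x → 0 ≤ y → max (G' (P (p, u))) 0 - ε' ≤ y → _) ∧
    (_ → G' (P (p, u)) < 0)
  rw [hDeq]
  set D : ℝ := G (P (p, u)) with hD
  -- concavity on the line
  have hconc : ∀ x y z : ℝ, x ≤ z → z ≤ y → update u a x ∈ Om → update u a y ∈ Om →
      min (f (update u a x)) (f (update u a y)) ≤ f (update u a z) := by
    intro x y z hxz hzy hx hy
    rcases eq_or_lt_of_le (hxz.trans hzy) with hxy | hxy
    · have : x = z := le_antisymm hxz (hxy ▸ hzy)
      subst this
      exact min_le_left _ _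
    set t : ℝ := (y - z) / (y - x) with ht
    have hyx : 0 < y - x := by linarith
    have ht0 : 0 ≤ t := div_nonneg (by linarith) hyx.le
    have ht1 : 0 ≤ 1 - t := by
      rw [sub_nonneg, ht, div_le_one hyx]
      linarith
    have hz : t • update u a x + (1 - t) • update u a y = update u a z := by
      funext b
      by_cases hb : b = a
      · subst hb
        simp only [Pi.add_apply, Pi.smul_apply, update_self, smul_eq_mul]
        rw [ht]
        field_simp
        ring
      · simp only [Pi.add_apply, Pi.smul_apply, update_of_ne hb, smul_eq_mul]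
        ring
    have h1 := hf.concave.2 hx hy ht0 ht1 (by ring)
    rw [hz] at h1
    refine le_trans ?_ h1
    simp only [smul_eq_mul]
    have h2 := min_le_left (f (update u a x)) (f (update u a y))
    have h3 := min_le_right (f (update u a x)) (f (update u a y))
    nlinarith
  have hueq : update u a (u a) = u := update_eq_self _ _
  -- points of the superlevel set are on the right of `u a`
  have hright : (∃ y, u a < y ∧ update u a y ∈ Om ∧ p < f (update u a y)) →
      ∀ x, update u a x ∈ Om → p < f (update u a x) → u a < x := by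
    rintro ⟨y, hy1, hy2, hy3⟩ x hx hpx
    by_contra hle
    rw [not_lt] at hle
    have h1 := hconc x y (u a) hle hy1.le hx hy2
    rw [hueq] at h1
    have h2 := lt_min hpx hy3
    linarith
  refine ⟨?_, ?_, ?_⟩
  · intro hex hD0
    by_contra hno
    push Not at hno
    have h1 : D1 Om a f δ p u ≤ (u a + D + ε') - u a := by
      refine h.D1_le hfc hδ0 (by linarith) fun y hy hpy => ⟨(hright hex y hy hpy).le, ?_⟩
      by_contra hlt
      rw [not_le] at hlt
      exact absurd hpy (not_lt.2 (hno y hlt hy))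
    have h2 := hb.2
    linarith
  · intro hex x y hx hy hDy hxy
    by_contra hlt
    rw [not_le] at hlt
    have hfx : p + ε < f (update u a x) := lt_of_lt_of_le hlt (min_le_left _ _)
    have hfxy : p + ε < f (update u a (x + y)) := lt_of_lt_of_le hlt (min_le_right _ _)
    have hxm : update u a x ∈ Om := h.line_down hxy hx (by linarith)
    have hux : u a < x := hright hex x hxm (by linarith)
    -- the slope bound
    have hslope : ∀ z, 0 ≤ z → z ≤ x → f (update u a x) ≤ f (update u a z) + (x - z) := by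
      intro z hz0 hzx
      have hzm : update u a z ∈ Om := h.line_down hxm hz0 hzx
      have h1 := hf.slope _ hzm a (x - z) (by linarith)
        (by simpa [update_idem] using hxm)
      simpa [update_idem] using h1
    have hgap : ε < x - u a := by
      have h1 := hslope (u a) (hu0 a) hux.le
      rw [hueq] at h1
      linarith
    have h1 : (x + y) - (x - ε / 2) ≤ D1 Om a f δ p u := by
      refine h.le_D1 hfc hδ0 (by linarith) fun z hz => ?_
      have hz0 : 0 ≤ z := by linarith [hz.1, hu0 a]
      refine ⟨h.line_down hxy hz0 hz.2, ?_⟩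
      rcases le_or_gt x z with hxz | hxz
      · have h2 := hconc x (x + y) z hxz hz.2 hxm hxy
        have h3 := lt_min hfx hfxy
        rw [hδ]
        linarith
      · have h2 := hslope z hz0 hxz.le
        rw [hδ]
        linarith [hz.1]
    have h2 := le_max_left D 0
    have h3 := hb.1
    linarith
  · intro hno
    have h1 : D1 Om a f δ p u ≤ 0 - 0 := by
      refine h.D1_le hfc hδ0 le_rfl fun y hy hpy => ?_
      exact absurd hpy (not_lt.2 (hno y hy))
    linarith [hb.2]

end Vale.Agent.P209.H721
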