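import Vale.Agent.P209.H721.CLift
import Vale.Agent.P209.H721.Seam

/-!
# The target-side lift `N` of the seam

Coordinates `w = (x₁ + i a₁, Z₀, Z₂)` (`d = 2`, `u = (x₀, x₂)`); `l = x₂ - x₀`,
`Λ = c + 3 x₂ - x₀`; `N` is the cotangent lift of
`x₁ ↦ qs (x₁ - (R + c) / 2 - l, Λ) + (R + c - Λ) / 2 + l`.
-/

namespace Vale.Agent.P209.H721

open scoped Topology ContDiff
open Complex H578 H684 Filter

/-- `Λ` on the target: `c + 3 x₂ - x₀` -/
def Lm (c : ℝ) (u : Fin 2 → ℝ) : ℝ := c + 3 * u 1 - u 0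

/-- `Q` on the target: `x₁ - (R + c) / 2 - (x₂ - x₀)` -/
noncomputable def Qm (R c : ℝ) (q : ℝ × (Fin 2 → ℝ)) : ℝ :=
  q.1 - (R + c) / 2 - (q.2 1 - q.2 0)

/-- `q*` on the target -/
noncomputable def qm (R c : ℝ) (t : ℝ → ℝ) (q : ℝ × (Fin 2 → ℝ)) : ℝ :=
  qs t (Qm R c q, Lm c q.2)

/-- the new `x₁` -/
noncomputable def NF (R c : ℝ) (t : ℝ → ℝ) (q : ℝ × (Fin 2 → ℝ)) : ℝ :=
  qm R c t q + (R + c - Lm c q.2) / 2 + (q.2 1 - q.2 0)

theorem Lm_contDiff (c : ℝ) : ContDiff ℝ ∞ (Lm c) := by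
  unfold Lm
  exact (contDiff_const.add (contDiff_const.mul (contDiff_apply ℝ ℝ 1))).sub
    (contDiff_apply ℝ ℝ 0)

theorem Qm_contDiff (R c : ℝ) : ContDiff ℝ ∞ (Qm R c) := by
  unfold Qm
  exact (contDiff_fst.sub contDiff_const).sub
    (((contDiff_apply ℝ ℝ (1 : Fin 2)).comp contDiff_snd).sub
      ((contDiff_apply ℝ ℝ (0 : Fin 2)).comp contDiff_snd))

section

variable {η R c : ℝ} {t t' : ℝ → ℝ} (h : TSpec η t t')

include h

theorem qm_contDiffAt {q : ℝ × (Fin 2 → ℝ)} (hq : 0 < 1 + t' 0 * Lm c q.2) :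
    ContDiffAt ℝ ∞ (qm R c t) q := by
  unfold qm
  exact ContDiffAt.comp (g := qs t) (f := fun q : ℝ × (Fin 2 → ℝ) => (Qm R c q, Lm c q.2)) q
    (h.qs_contDiffAt hq)
    ((Qm_contDiff R c).prodMk ((Lm_contDiff c).comp contDiff_snd)).contDiffAt

theorem NF_contDiffAt {q : ℝ × (Fin 2 → ℝ)} (hq : 0 < 1 + t' 0 * Lm c q.2) :
    ContDiffAt ℝ ∞ (NF R c t) q := by
  unfold NF
  have h1 : ContDiff ℝ ∞ fun q : ℝ × (Fin 2 → ℝ) => (R + c - Lm c q.2) / 2 :=
    (contDiff_const.sub ((Lm_contDiff c).comp contDiff_snd)).div_const 2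
  have h2 : ContDiff ℝ ∞ fun q : ℝ × (Fin 2 → ℝ) => (q.2 1 - q.2 0) :=
    ((contDiff_apply ℝ ℝ (1 : Fin 2)).comp contDiff_snd).sub
      ((contDiff_apply ℝ ℝ (0 : Fin 2)).comp contDiff_snd)
  exact ((qm_contDiffAt h hq).add h1.contDiffAt).add h2.contDiffAt

/-- the defining equation -/
theorem qm_eq (q : ℝ × (Fin 2 → ℝ)) :
    qm R c t q + t (qm R c t q) * Lm c q.2 = Qm R c q := h.qs_eq (Qm R c q, Lm c q.2)

omit h in
/-- `q*` is half of the difference `x₁ - x₃` of the new point -/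
theorem NF_diff (q : ℝ × (Fin 2 → ℝ)) :
    NF R c t q - (R - NF R c t q - q.2 0 - q.2 1) = 2 * qm R c t q := by
  unfold NF Lm
  ring

/-- the derivative of `q*` in the first variable -/
theorem one_add_pos {q : ℝ × (Fin 2 → ℝ)} (hq : 0 < 1 + t' 0 * Lm c q.2) (a : ℝ) :
    0 < 1 + t' a * Lm c q.2 := by
  rcases le_total 0 (Lm c q.2) with h1 | h1
  · have := mul_nonneg (h.nonneg a) h1
    linarith
  · have h2 := mul_le_mul_of_nonpos_right (h.le_zero a) h1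
    linarith

theorem qm_fderiv {q : ℝ × (Fin 2 → ℝ)} (hq : 0 < 1 + t' 0 * Lm c q.2)
    (v : ℝ × (Fin 2 → ℝ)) :
    (1 + t' (qm R c t q) * Lm c q.2) * fderiv ℝ (qm R c t) q v =
      v.1 - (v.2 1 - v.2 0) - t (qm R c t q) * (3 * v.2 1 - v.2 0) := by
  have h1 : HasFDerivAt (qm R c t) (fderiv ℝ (qm R c t) q) q :=
    ((qm_contDiffAt h hq).differentiableAt (by simp)).hasFDerivAt
  have h2 : HasFDerivAt (fun q => t (qm R c t q)) ((t' (qm R c t q)) • fderiv ℝ (qm R c t) q) q := by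
    have h3 := (h.deriv (qm R c t q)).hasFDerivAt.comp q h1
    refine h3.congr_fderiv ?_
    ext v <;> simp [mul_comm]
  have hL : HasFDerivAt (fun q : ℝ × (Fin 2 → ℝ) => Lm c q.2)
      ((3 : ℝ) • (ContinuousLinearMap.proj (R := ℝ) (φ := fun _ : Fin 2 => ℝ) 1).comp
        (ContinuousLinearMap.snd ℝ ℝ (Fin 2 → ℝ)) -
        (ContinuousLinearMap.proj (R := ℝ) (φ := fun _ : Fin 2 => ℝ) 0).comp
        (ContinuousLinearMap.snd ℝ ℝ (Fin 2 → ℝ))) q := by
    have e0 : ∀ j : Fin 2, HasFDerivAt (fun q : ℝ × (Fin 2 → ℝ) => q.2 j)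
        ((ContinuousLinearMap.proj (R := ℝ) (φ := fun _ : Fin 2 => ℝ) j).comp
        (ContinuousLinearMap.snd ℝ ℝ (Fin 2 → ℝ))) q := fun j =>
      ((ContinuousLinearMap.proj (R := ℝ) (φ := fun _ : Fin 2 => ℝ) j).comp
        (ContinuousLinearMap.snd ℝ ℝ (Fin 2 → ℝ))).hasFDerivAt
    have e1 := (((e0 1).const_mul 3).const_add c).sub (e0 0)
    exact e1
  have hQ : HasFDerivAt (Qm R c)
      (ContinuousLinearMap.fst ℝ ℝ (Fin 2 → ℝ) -
        ((ContinuousLinearMap.proj (R := ℝ) (φ := fun _ : Fin 2 => ℝ) 1).comp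
        (ContinuousLinearMap.snd ℝ ℝ (Fin 2 → ℝ)) -
        (ContinuousLinearMap.proj (R := ℝ) (φ := fun _ : Fin 2 => ℝ) 0).comp
        (ContinuousLinearMap.snd ℝ ℝ (Fin 2 → ℝ)))) q := by
    have e0 : ∀ j : Fin 2, HasFDerivAt (fun q : ℝ × (Fin 2 → ℝ) => q.2 j)
        ((ContinuousLinearMap.proj (R := ℝ) (φ := fun _ : Fin 2 => ℝ) j).comp
        (ContinuousLinearMap.snd ℝ ℝ (Fin 2 → ℝ))) q := fun j =>
      ((ContinuousLinearMap.proj (R := ℝ) (φ := fun _ : Fin 2 => ℝ) j).comp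
        (ContinuousLinearMap.snd ℝ ℝ (Fin 2 → ℝ))).hasFDerivAt
    exact (hasFDerivAt_fst.sub_const ((R + c) / 2)).sub ((e0 1).sub (e0 0))
  have h4 := h1.add (h2.mul hL)
  have h5 : (fun q => qm R c t q + t (qm R c t q) * Lm c q.2) = Qm R c :=
    funext fun q => qm_eq h q
  have h6 : HasFDerivAt (fun q => qm R c t q + t (qm R c t q) * Lm c q.2) _ q := h4
  rw [h5] at h6
  have h7 := h6.unique hQ
  have h8 := congrArg (fun L : ℝ × (Fin 2 → ℝ) →L[ℝ] ℝ => L v) h7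
  simp only [_root_.add_apply, _root_.sub_apply, _root_.smul_apply, smul_eq_mul,
    ContinuousLinearMap.comp_apply, ContinuousLinearMap.proj_apply,
    ContinuousLinearMap.coe_snd', ContinuousLinearMap.coe_fst'] at h8
  linarith

theorem NF_fderiv {q : ℝ × (Fin 2 → ℝ)} (hq : 0 < 1 + t' 0 * Lm c q.2)
    (v : ℝ × (Fin 2 → ℝ)) :
    fderiv ℝ (NF R c t) q v = fderiv ℝ (qm R c t) q v - (3 * v.2 1 - v.2 0) / 2 +
      (v.2 1 - v.2 0) := by
  have h1 : HasFDerivAt (qm R c t) (fderiv ℝ (qm R c t) q) q :=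
    ((qm_contDiffAt h hq).differentiableAt (by simp)).hasFDerivAt
  have e0 : ∀ j : Fin 2, HasFDerivAt (fun q : ℝ × (Fin 2 → ℝ) => q.2 j)
      ((ContinuousLinearMap.proj (R := ℝ) (φ := fun _ : Fin 2 => ℝ) j).comp
      (ContinuousLinearMap.snd ℝ ℝ (Fin 2 → ℝ))) q := fun j =>
    ((ContinuousLinearMap.proj (R := ℝ) (φ := fun _ : Fin 2 => ℝ) j).comp
      (ContinuousLinearMap.snd ℝ ℝ (Fin 2 → ℝ))).hasFDerivAt
  have h2 : HasFDerivAt (NF R c t) _ q :=
    (h1.add ((((((e0 1).const_mul 3).const_add c).sub (e0 0)).const_sub (R + c)).mul_const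
      (1 / 2))).add ((e0 1).sub (e0 0)) |>.congr_of_eventuallyEq
      (Eventually.of_forall fun q => by
        show NF R c t q = qm R c t q + (R + c - (c + 3 * q.2 1 - q.2 0)) * (1 / 2) +
          (q.2 1 - q.2 0)
        unfold NF Lm
        ring)
  rw [h2.fderiv]
  simp only [_root_.add_apply, _root_.sub_apply, _root_.smul_apply, _root_.neg_apply,
    smul_eq_mul, ContinuousLinearMap.comp_apply, ContinuousLinearMap.proj_apply,
    ContinuousLinearMap.coe_snd']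
  ring

/-- `∂NF/∂x₁ = 1 / (1 + t' (q*) Λ)` -/
theorem NF_Fp {q : ℝ × (Fin 2 → ℝ)} (hq : 0 < 1 + t' 0 * Lm c q.2) :
    Fp (NF R c t) q = 1 / (1 + t' (qm R c t q) * Lm c q.2) := by
  have h1 := one_add_pos h hq (qm R c t q)
  have h2 := qm_fderiv (R := R) h hq (1, 0)
  unfold Fp
  rw [NF_fderiv h hq]
  simp only [Pi.zero_apply, mul_zero, sub_zero, zero_div, add_zero] at h2 ⊢
  rw [eq_div_iff h1.ne']
  linarith

theorem NF_Fp_pos {q : ℝ × (Fin 2 → ℝ)} (hq : 0 < 1 + t' 0 * Lm c q.2) :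
    0 < Fp (NF R c t) q := by
  rw [NF_Fp h hq]
  have h1 := one_add_pos h hq (qm R c t q)
  positivity

/-- plateau on the left: `NF = x₁` -/
theorem NF_left {q : ℝ × (Fin 2 → ℝ)} (hq : 0 < 1 + t' 0 * Lm c q.2)
    (hl : qm R c t q ≤ -(η / 2)) : NF R c t q = q.1 := by
  have h1 := qm_eq (R := R) (c := c) h q
  rw [h.left _ hl] at h1
  unfold NF
  unfold Qm at h1
  linarith

/-- plateau on the right: `NF = x₁ - Λ` -/
theorem NF_right {q : ℝ × (Fin 2 → ℝ)} (hq : 0 < 1 + t' 0 * Lm c q.2)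
    (hl : η / 2 ≤ qm R c t q) : NF R c t q = q.1 - Lm c q.2 := by
  have h1 := qm_eq (R := R) (c := c) h q
  rw [h.right _ hl] at h1
  unfold NF
  unfold Qm at h1
  linarith

/-- injectivity in the first variable -/
theorem NF_inj {q q' : ℝ × (Fin 2 → ℝ)} (hu : q.2 = q'.2) (h1 : NF R c t q = NF R c t q') :
    q.1 = q'.1 := by
  have e : qm R c t q = qm R c t q' := by
    unfold NF at h1
    rw [hu] at h1
    linarith
  have e1 := qm_eq (R := R) (c := c) h q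
  have e2 := qm_eq (R := R) (c := c) h q'
  rw [e, hu] at e1
  have e3 : Qm R c q = Qm R c q' := by rw [← e1, ← e2]
  unfold Qm at e3
  rw [hu] at e3
  linarith

/-- the lift `N` is smooth -/
theorem N_contDiffAt {w : Fin 3 → ℂ} (hw : 0 < 1 + t' 0 * Lm c (uu w)) :
    ContDiffAt ℝ ∞ (clift (NF R c t)) w :=
  clift_contDiffAt (NF_contDiffAt h hw) (NF_Fp_pos h hw).ne'

/-- the lift `N` is symplectic -/
theorem N_sympl {w : Fin 3 → ℂ} (hw : 0 < 1 + t' 0 * Lm c (uu w)) (v v' : Fin 3 → ℂ) :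
    omega (fderiv ℝ (clift (NF R c t)) w v) (fderiv ℝ (clift (NF R c t)) w v') = omega v v' :=
  clift_sympl (NF_contDiffAt h hw) (NF_Fp_pos h hw).ne' v v'

/-- the lift `N` is injective -/
theorem N_inj {w w' : Fin 3 → ℂ} (hw : 0 < 1 + t' 0 * Lm c (uu w))
    (hN : clift (NF R c t) w = clift (NF R c t) w') : w = w' :=
  clift_inj (NF_Fp_pos h hw).ne'
    (fun hu hF => NF_inj h (q := qq w) (q' := qq w') hu hF) hN

/-- the new angle: `a₁* = a₁ (1 + t' (q*) Λ)` -/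
theorem N_im {w : Fin 3 → ℂ} (hw : 0 < 1 + t' 0 * Lm c (uu w)) :
    (clift (NF R c t) w 0).im = (w 0).im * (1 + t' (qm R c t (qq w)) * Lm c (uu w)) := by
  rw [clift_im]
  unfold ctau
  rw [NF_Fp h hw]
  have h1 := one_add_pos h (q := qq w) hw (qm R c t (qq w))
  have h2 : (qq w).2 = uu w := rfl
  rw [h2] at h1 ⊢
  field_simp

/-- on the left plateau `N` is the identity -/
theorem N_left {w : Fin 3 → ℂ} (hw : 0 < 1 + t' 0 * Lm c (uu w))
    (hl : qm R c t (qq w) < -(η / 2)) : clift (NF R c t) w = w := by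
  have hc : ContinuousAt (qm R c t) (qq w) := (qm_contDiffAt h hw).continuousAt
  have hc2 : ContinuousAt (fun q : ℝ × (Fin 2 → ℝ) => 1 + t' 0 * Lm c q.2) (qq w) :=
    (continuous_const.add (continuous_const.mul
      ((Lm_contDiff c).continuous.comp continuous_snd))).continuousAt
  have hev : NF R c t =ᶠ[𝓝 (qq w)] fun q => q.1 := by
    filter_upwards [hc.eventually (gt_mem_nhds hl), hc2.eventually (lt_mem_nhds hw)] with q h1 h2
    exact NF_left h h2 h1.le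
  rw [clift_congr hev, clift_id]

/-- on the right plateau `N` is the integral shear `x₁ ↦ x₁ - c - 3 x₂ + x₀` -/
theorem N_right {w : Fin 3 → ℂ} (hw : 0 < 1 + t' 0 * Lm c (uu w))
    (hl : η / 2 < qm R c t (qq w)) : clift (NF R c t) w =
      Fin.cons (w 0 - ((Lm c (uu w) : ℝ) : ℂ))
        (fun b => ee ((w 0).im * (if b = 0 then -1 else 3)) * w b.succ) := by
  have hc : ContinuousAt (qm R c t) (qq w) := (qm_contDiffAt h hw).continuousAt
  have hc2 : ContinuousAt (fun q : ℝ × (Fin 2 → ℝ) => 1 + t' 0 * Lm c q.2) (qq w) :=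
    (continuous_const.add (continuous_const.mul
      ((Lm_contDiff c).continuous.comp continuous_snd))).continuousAt
  have hev : NF R c t =ᶠ[𝓝 (qq w)] fun q => q.1 + (-(Lm c q.2)) := by
    filter_upwards [hc.eventually (lt_mem_nhds hl), hc2.eventually (lt_mem_nhds hw)] with q h1 h2
    rw [NF_right h h2 h1.le]
    ring
  have hd : HasFDerivAt (fun u : Fin 2 → ℝ => -(Lm c u))
      (-((3 : ℝ) • ContinuousLinearMap.proj (R := ℝ) (φ := fun _ : Fin 2 => ℝ) 1 -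
        ContinuousLinearMap.proj (R := ℝ) (φ := fun _ : Fin 2 => ℝ) 0)) (uu w) := by
    have e0 : ∀ j : Fin 2, HasFDerivAt (fun u : Fin 2 → ℝ => u j)
        (ContinuousLinearMap.proj (R := ℝ) (φ := fun _ : Fin 2 => ℝ) j) (uu w) := fun j =>
      (ContinuousLinearMap.proj (R := ℝ) (φ := fun _ : Fin 2 => ℝ) j).hasFDerivAt
    exact ((((e0 1).const_mul 3).const_add c).sub (e0 0)).neg
  rw [clift_shear (g := fun u => -(Lm c u)) hev hd.differentiableAt, hd.fderiv]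
  funext j
  refine Fin.cases ?_ (fun b => ?_) j
  · simp only [Fin.cons_zero]
    push_cast
    ring
  · simp only [Fin.cons_succ]
    congr 2
    fin_cases b <;> simp

end

end Vale.Agent.P209.H721
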