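import Vale.Agent.P209.H721.NLift
import Vale.Agent.P209.H684.Gate

/-!
# The source-side lift `R` of the seam, in the wrap frame

Wrap frame `w = (P + i θ, z₁, z₂)`, `u = (u₀, u₁)` the actions of the two discs, `s = u₀ + u₁`,
`CC = 3 R + c - 7 s - 2 χ (s - c)`, `LS = 2 u₀ + s + 2 χ (s - c)`, `q = -(P + CC / 2)`,
`R = clift (q + t q * LS)`.
-/

namespace Vale.Agent.P209.H721

open scoped Topology ContDiff
open Complex H578 H684 Filter

/-- the deck length of the model -/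
noncomputable def CC (R c d : ℝ) (u : Fin 2 → ℝ) : ℝ :=
  3 * R + c - 7 * (u 0 + u 1) - 2 * chi d (u 0 + u 1 - c)

/-- `Λ` on the source -/
noncomputable def LS (c d : ℝ) (u : Fin 2 → ℝ) : ℝ :=
  2 * u 0 + (u 0 + u 1) + 2 * chi d (u 0 + u 1 - c)

/-- the symmetric coordinate at the seam -/
noncomputable def qR (R c d : ℝ) (q : ℝ × (Fin 2 → ℝ)) : ℝ := -(q.1 + CC R c d q.2 / 2)

/-- the generating change `P ↦ Q` -/
noncomputable def RF (R c d : ℝ) (t : ℝ → ℝ) (q : ℝ × (Fin 2 → ℝ)) : ℝ :=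
  qR R c d q + t (qR R c d q) * LS c d q.2

theorem u_contDiff (j : Fin 2) : ContDiff ℝ ∞ fun u : Fin 2 → ℝ => u j := contDiff_apply ℝ ℝ j

theorem CC_contDiff (R c d : ℝ) : ContDiff ℝ ∞ (CC R c d) := by
  unfold CC
  exact (contDiff_const.sub (contDiff_const.mul ((u_contDiff 0).add (u_contDiff 1)))).sub
    (contDiff_const.mul ((chi_contDiff d).comp (((u_contDiff 0).add (u_contDiff 1)).sub
      contDiff_const)))

theorem LS_contDiff (c d : ℝ) : ContDiff ℝ ∞ (LS c d) := by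
  unfold LS
  exact ((contDiff_const.mul (u_contDiff 0)).add ((u_contDiff 0).add (u_contDiff 1))).add
    (contDiff_const.mul ((chi_contDiff d).comp (((u_contDiff 0).add (u_contDiff 1)).sub
      contDiff_const)))

theorem qR_contDiff (R c d : ℝ) : ContDiff ℝ ∞ (qR R c d) := by
  unfold qR
  exact (contDiff_fst.add (((CC_contDiff R c d).comp contDiff_snd).div_const 2)).neg

theorem RF_contDiff {η : ℝ} {t t' : ℝ → ℝ} (h : TSpec η t t') (R c d : ℝ) :
    ContDiff ℝ ∞ (RF R c d t) := by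
  unfold RF
  exact (qR_contDiff R c d).add ((h.smooth.comp (qR_contDiff R c d)).mul
    ((LS_contDiff c d).comp contDiff_snd))

theorem LS_nonneg {c d : ℝ} (hd : 0 < d) {u : Fin 2 → ℝ} (h0 : 0 ≤ u 0) (h1 : 0 ≤ u 1) :
    0 ≤ LS c d u := by
  unfold LS
  have := (chi_nonneg_aux hd (t := u 0 + u 1 - c)).1
  linarith

/-- **`Λ* ≤ Λ + e`**: the target quantity against the source quantity, with two different
smoothing parameters. Here `a₁`, `s` are the starred quantities (`x₂ = a₁ + χ_B (s - c)`,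
`x₀ = a₁ + χ_B (s - c) - (s - c)`). -/
theorem Lm_le_LS {c d dB e₁ : ℝ} (hd : 0 < d) (hdB : 0 < dB) {u v : Fin 2 → ℝ} {a s : ℝ}
    (h2 : v 1 = a + chi dB (s - c)) (h0 : v 0 = a + chi dB (s - c) - (s - c))
    (ha : a ≤ u 0 + e₁) (hs : s ≤ u 0 + u 1 + e₁) (he : 0 ≤ e₁) :
    Lm c v ≤ LS c d u + (5 * e₁ + 2 * dB) := by
  unfold Lm LS
  rw [h2, h0]
  have h3 := chi_le hdB (t := s - c)
  have h4 := chi_nonneg_aux hd (t := u 0 + u 1 - c)
  have h5 : max (s - c) 0 ≤ chi d (u 0 + u 1 - c) + e₁ := by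
    refine max_le ?_ ?_
    · linarith [h4.2]
    · linarith [h4.1]
  linarith

theorem Lm_eq {c dB : ℝ} {v : Fin 2 → ℝ} {a s : ℝ}
    (h2 : v 1 = a + chi dB (s - c)) (h0 : v 0 = a + chi dB (s - c) - (s - c)) :
    Lm c v = 2 * a + s + 2 * chi dB (s - c) := by
  unfold Lm
  rw [h2, h0]
  ring

section

variable {η : ℝ} {t t' : ℝ → ℝ} (h : TSpec η t t')

include h

theorem RF_Fp {R c d : ℝ} (q : ℝ × (Fin 2 → ℝ)) :
    Fp (RF R c d t) q = -(1 + t' (qR R c d q) * LS c d q.2) := by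
  have h1 : HasFDerivAt (qR R c d) (fderiv ℝ (qR R c d) q) q :=
    ((qR_contDiff R c d).contDiffAt.differentiableAt (by simp)).hasFDerivAt
  have h2 : HasFDerivAt (fun q => t (qR R c d q))
      ((t' (qR R c d q)) • fderiv ℝ (qR R c d) q) q := by
    have h3 := (h.deriv (qR R c d q)).hasFDerivAt.comp q h1
    refine h3.congr_fderiv ?_
    ext v <;> simp [mul_comm]
  have h4 : HasFDerivAt (fun q : ℝ × (Fin 2 → ℝ) => LS c d q.2)
      (fderiv ℝ (fun q : ℝ × (Fin 2 → ℝ) => LS c d q.2) q) q :=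
    (((LS_contDiff c d).comp contDiff_snd).contDiffAt.differentiableAt (by simp)).hasFDerivAt
  have h5 := h1.add (h2.mul h4)
  have e1 : fderiv ℝ (qR R c d) q (1, 0) = -1 := by
    have k1 : HasFDerivAt (fun q : ℝ × (Fin 2 → ℝ) => CC R c d q.2)
        ((fderiv ℝ (CC R c d) q.2).comp (ContinuousLinearMap.snd ℝ ℝ (Fin 2 → ℝ))) q :=
      HasFDerivAt.comp (g := CC R c d) q
        ((CC_contDiff R c d).contDiffAt.differentiableAt (by simp)).hasFDerivAt hasFDerivAt_snd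
    have k2 : HasFDerivAt (qR R c d) _ q :=
      (hasFDerivAt_fst.add (k1.mul_const (1 / 2))).neg.congr_of_eventuallyEq
        (Eventually.of_forall fun q => by
          show qR R c d q = -(q.1 + CC R c d q.2 * (1 / 2))
          unfold qR
          ring)
    rw [k2.fderiv]
    simp
  have e2 : fderiv ℝ (fun q : ℝ × (Fin 2 → ℝ) => LS c d q.2) q (1, 0) = 0 := by
    have k1 : HasFDerivAt (fun q : ℝ × (Fin 2 → ℝ) => LS c d q.2)
        ((fderiv ℝ (LS c d) q.2).comp (ContinuousLinearMap.snd ℝ ℝ (Fin 2 → ℝ))) q :=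
      HasFDerivAt.comp (g := LS c d) q
        ((LS_contDiff c d).contDiffAt.differentiableAt (by simp)).hasFDerivAt hasFDerivAt_snd
    rw [k1.fderiv]
    simp
  have h6 : HasFDerivAt (RF R c d t) _ q := h5
  unfold Fp
  rw [h6.fderiv]
  simp only [_root_.add_apply, _root_.smul_apply, smul_eq_mul, e1, e2]
  ring

theorem RF_Fp_neg {R c d : ℝ} (hd : 0 < d) {q : ℝ × (Fin 2 → ℝ)} (h0 : 0 ≤ q.2 0)
    (h1 : 0 ≤ q.2 1) : Fp (RF R c d t) q ≤ -1 := by
  rw [RF_Fp h]
  have := mul_nonneg (h.nonneg (qR R c d q)) (LS_nonneg (c := c) hd h0 h1)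
  linarith

omit h in
theorem uu_nonneg (w : Fin 3 → ℂ) (j : Fin 2) : 0 ≤ uu w j := by
  unfold uu
  positivity

theorem R_Fp_ne {R c d : ℝ} (hd : 0 < d) (w : Fin 3 → ℂ) :
    Fp (RF R c d t) (qq w) ≠ 0 := by
  have := RF_Fp_neg h (R := R) (c := c) hd (q := qq w) (uu_nonneg w 0) (uu_nonneg w 1)
  linarith

/-- the lift `R` is smooth everywhere -/
theorem R_contDiff {R c d : ℝ} (hd : 0 < d) : ContDiff ℝ ∞ (clift (RF R c d t)) := by
  rw [contDiff_iff_contDiffAt]
  intro w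
  exact clift_contDiffAt (RF_contDiff h R c d).contDiffAt (R_Fp_ne h hd w)

/-- the lift `R` is symplectic -/
theorem R_sympl {R c d : ℝ} (hd : 0 < d) (w v v' : Fin 3 → ℂ) :
    omega (fderiv ℝ (clift (RF R c d t)) w v) (fderiv ℝ (clift (RF R c d t)) w v') =
      omega v v' :=
  clift_sympl (RF_contDiff h R c d).contDiffAt (R_Fp_ne h hd w) v v'

/-- injectivity of `RF` in the first variable -/
theorem RF_inj {R c d : ℝ} (hd : 0 < d) {q q' : ℝ × (Fin 2 → ℝ)} (h0 : 0 ≤ q.2 0)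
    (h1 : 0 ≤ q.2 1) (hu : q.2 = q'.2) (hR : RF R c d t q = RF R c d t q') : q.1 = q'.1 := by
  have hL := LS_nonneg (c := c) hd h0 h1
  have hT : 0 < 1 + t' 0 * LS c d q.2 := by
    have := mul_nonneg (h.nonneg 0) hL
    linarith
  unfold RF at hR
  rw [← hu] at hR
  have h2 := (h.strictMono hT).injective hR
  unfold qR at h2
  rw [hu] at h2
  linarith

theorem R_inj {R c d : ℝ} (hd : 0 < d) {w w' : Fin 3 → ℂ}
    (hR : clift (RF R c d t) w = clift (RF R c d t) w') : w = w' :=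
  clift_inj (R_Fp_ne h hd w)
    (fun hu hF => RF_inj h hd (q := qq w) (q' := qq w') (uu_nonneg w 0) (uu_nonneg w 1) hu hF) hR

/-- the angle of `R w` -/
theorem R_im {R c d : ℝ} (w : Fin 3 → ℂ) :
    (clift (RF R c d t) w 0).im = -((w 0).im / (1 + t' (qR R c d (qq w)) * LS c d (uu w))) := by
  rw [clift_im]
  unfold ctau
  rw [RF_Fp h]
  have h2 : (qq w).2 = uu w := rfl
  rw [h2, div_neg]

omit h in
theorem R_re {R c d : ℝ} (w : Fin 3 → ℂ) :
    (clift (RF R c d t) w 0).re = RF R c d t (qq w) := clift_re _ _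

/-- on the left plateau -/
theorem RF_left {R c d : ℝ} {q : ℝ × (Fin 2 → ℝ)} (hq : qR R c d q ≤ -(η / 2)) :
    RF R c d t q = -q.1 - ((3 * R + c) / 2 + q.2 0 - 3 * (q.2 0 + q.2 1)) := by
  unfold RF
  rw [h.left _ hq]
  unfold qR CC LS
  ring

/-- on the left plateau `R` is the left frame: integral affine -/
theorem R_left {R c d : ℝ} {w : Fin 3 → ℂ} (hq : qR R c d (qq w) < -(η / 2)) :
    clift (RF R c d t) w =
      Fin.cons (-(w 0) - (((3 * R + c) / 2 + uu w 0 - 3 * (uu w 0 + uu w 1) : ℝ) : ℂ))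
        (fun b => ee ((w 0).im * (if b = 0 then 2 else 3)) * w b.succ) := by
  have hc : ContinuousAt (qR R c d) (qq w) := (qR_contDiff R c d).continuous.continuousAt
  have hev : RF R c d t =ᶠ[𝓝 (qq w)]
      fun q => -q.1 - ((3 * R + c) / 2 + q.2 0 - 3 * (q.2 0 + q.2 1)) := by
    filter_upwards [hc.eventually (gt_mem_nhds hq)] with q h1
    exact RF_left h h1.le
  have e0 : ∀ j : Fin 2, HasFDerivAt (fun q : ℝ × (Fin 2 → ℝ) => q.2 j)
      ((ContinuousLinearMap.proj (R := ℝ) (φ := fun _ : Fin 2 => ℝ) j).comp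
      (ContinuousLinearMap.snd ℝ ℝ (Fin 2 → ℝ))) (qq w) := fun j =>
    ((ContinuousLinearMap.proj (R := ℝ) (φ := fun _ : Fin 2 => ℝ) j).comp
      (ContinuousLinearMap.snd ℝ ℝ (Fin 2 → ℝ))).hasFDerivAt
  have hd : HasFDerivAt (fun q : ℝ × (Fin 2 → ℝ) =>
      -q.1 - ((3 * R + c) / 2 + q.2 0 - 3 * (q.2 0 + q.2 1))) _ (qq w) :=
    hasFDerivAt_fst.neg.sub (((e0 0).const_add ((3 * R + c) / 2)).sub
      (((e0 0).add (e0 1)).const_mul 3))
  rw [clift_congr hev]
  have hτ : ctau (fun q : ℝ × (Fin 2 → ℝ) =>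
      -q.1 - ((3 * R + c) / 2 + q.2 0 - 3 * (q.2 0 + q.2 1))) w = -(w 0).im := by
    unfold ctau Fp
    rw [hd.fderiv]
    simp [div_neg]
  funext j
  refine Fin.cases ?_ (fun b => ?_) j
  · rw [clift_zero, hτ]
    simp only [Fin.cons_zero]
    apply Complex.ext
    · simp [qq]
    · simp
  · rw [clift_succ, hτ]
    simp only [Fin.cons_succ]
    congr 2
    unfold Fu
    rw [hd.fderiv]
    fin_cases b
    · simp
      left
      ring
    · simp

end

end Vale.Agent.P209.H721
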