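import Vale.Agent.P209.H721.RLift

/-!
# The seam: bounds for the composition `N ∘ (displacement) ∘ R`

`w` is a source point (wrap frame), `v = (x₁ + i a₁, Z₀, Z₂)` a target point with the same `Q`.
-/

namespace Vale.Agent.P209.H721

open scoped Topology ContDiff
open Complex H578 H684 Filter

variable {η : ℝ} {t t' : ℝ → ℝ} (h : TSpec η t t')

include h

theorem seam_eq {R c d : ℝ} {w v : Fin 3 → ℂ}
    (hQ : Qm R c (qq v) = RF R c d t (qq w)) :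
    qR R c d (qq w) + t (qR R c d (qq w)) * LS c d (uu w) =
      qm R c t (qq v) + t (qm R c t (qq v)) * Lm c (uu v) := by
  have h1 := qm_eq (R := R) (c := c) h (qq v)
  rw [hQ] at h1
  rw [show Lm c (uu v) = Lm c (qq v).2 from rfl, h1]
  rfl

theorem seam_abs {R c d e : ℝ} (hd : 0 < d) {w v : Fin 3 → ℂ}
    (hQ : Qm R c (qq v) = RF R c d t (qq w)) (hL0 : 0 ≤ Lm c (uu v)) (he : 0 ≤ e)
    (hL : Lm c (uu v) ≤ LS c d (uu w) + e) :
    |qR R c d (qq w)| - e / 2 ≤ |qm R c t (qq v)| :=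
  h.I1_abs hL0 he hL (LS_nonneg hd (uu_nonneg w 0) (uu_nonneg w 1)) (seam_eq h hQ)

theorem seam_neg {R c d e : ℝ} (hd : 0 < d) {w v : Fin 3 → ℂ}
    (hQ : Qm R c (qq v) = RF R c d t (qq w)) (hL0 : 0 ≤ Lm c (uu v)) (he : 0 ≤ e)
    (hL : Lm c (uu v) ≤ LS c d (uu w) + e) (hq : qR R c d (qq w) ≤ 0) :
    qm R c t (qq v) ≤ 0 ∧ qm R c t (qq v) ≤ qR R c d (qq w) + e / 2 :=
  h.I1_neg hL0 he hL hq (LS_nonneg hd (uu_nonneg w 0) (uu_nonneg w 1)) (seam_eq h hQ)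

theorem seam_pos {R c d e : ℝ} (hd : 0 < d) {w v : Fin 3 → ℂ}
    (hQ : Qm R c (qq v) = RF R c d t (qq w)) (hL0 : 0 ≤ Lm c (uu v)) (he : 0 ≤ e)
    (hL : Lm c (uu v) ≤ LS c d (uu w) + e) (hq : 0 ≤ qR R c d (qq w)) :
    0 ≤ qm R c t (qq v) ∧ qR R c d (qq w) - e / 2 ≤ qm R c t (qq v) :=
  h.I1_pos hL0 he hL hq (LS_nonneg hd (uu_nonneg w 0) (uu_nonneg w 1)) (seam_eq h hQ)

/-- the target angle after `N` -/
theorem seam_im {R c d : ℝ} {w v : Fin 3 → ℂ}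
    (hv : 0 < 1 + t' 0 * Lm c (uu v)) (ha : (v 0).im = (clift (RF R c d t) w 0).im) :
    (clift (NF R c t) v 0).im =
      -((w 0).im * (1 + t' (qm R c t (qq v)) * Lm c (uu v)) /
        (1 + t' (qR R c d (qq w)) * LS c d (uu w))) := by
  rw [N_im h hv, ha, R_im h]
  ring

/-- the target angle stays in `(-1, 0)` -/
theorem seam_angle {δ M : ℝ} (hδ : 0 < δ) (hM : 0 ≤ M) : ∃ e₀ : ℝ, 0 < e₀ ∧
    ∀ (R c d e : ℝ) (w v : Fin 3 → ℂ), 0 < d → 0 ≤ e → e ≤ e₀ → 0 ≤ Lm c (uu v) →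
      LS c d (uu w) ≤ M → Lm c (uu v) ≤ LS c d (uu w) + e →
      Qm R c (qq v) = RF R c d t (qq w) → (v 0).im = (clift (RF R c d t) w 0).im →
      0 < (w 0).im → (w 0).im * (1 + δ) < 1 →
      -1 < (clift (NF R c t) v 0).im ∧ (clift (NF R c t) v 0).im < 0 := by
  obtain ⟨e₀, he₀, H⟩ := h.I2 hδ hM
  refine ⟨e₀, he₀, fun R c d e w v hd he hee hL0 hLM hL hQ ha h0 h1 => ?_⟩
  have hLS := LS_nonneg (c := c) hd (uu_nonneg w 0) (uu_nonneg w 1)
  have hv : 0 < 1 + t' 0 * Lm c (uu v) := by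
    have := mul_nonneg (h.nonneg 0) hL0
    linarith
  rw [seam_im h hv ha]
  have h2 := H e (qR R c d (qq w)) (qm R c t (qq v)) (LS c d (uu w)) (Lm c (uu v)) he hee hL0
    hLS hLM hL (seam_eq h hQ)
  have ha0 : 0 < 1 + t' (qR R c d (qq w)) * LS c d (uu w) := by
    have := mul_nonneg (h.nonneg (qR R c d (qq w))) hLS
    linarith
  have hb0 : 0 < 1 + t' (qm R c t (qq v)) * Lm c (uu v) := by
    have := mul_nonneg (h.nonneg (qm R c t (qq v))) hL0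
    linarith
  have h3 := TSpec.theta_lt h0 h1 ha0 hb0 h2
  constructor
  · linarith [h3.2]
  · linarith [h3.1]

end Vale.Agent.P209.H721
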